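import Mathlib
import Crest.Agent.X212.Slc61.Slice

-- ▼ part X212/Grp76/Core
section

/-! The Sobolev gauge group, format free: the group of units `1 + ξ` of a non unital Banach
`*`-algebra, its affine action on (connection, spinor) pairs. -/

set_option autoImplicit false

noncomputable section

open Set Filter Topology

namespace Crest.Agent.X212.Grp76

/-- Algebraic data of a gauge group.  `R` = sections of the quaternion bundle (one derivative
more), `B` = one-forms with values in it, `S` = spinors (and whatever else `R` acts on),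
`C` = configuration space (identified with skew elements of `B` times `S`),
`L` = Lie algebra (identified with the skew elements of `R`). -/
structure GA (R B S C L : Type*) [NormedAddCommGroup R] [NormedSpace ℝ R]
    [NormedAddCommGroup B] [NormedSpace ℝ B] [NormedAddCommGroup S] [NormedSpace ℝ S]
    [NormedAddCommGroup C] [NormedSpace ℝ C] [NormedAddCommGroup L] [NormedSpace ℝ L] where
  /-- product -/
  m : R →L[ℝ] R →L[ℝ] R
  /-- star -/
  st : R →L[ℝ] R
  /-- `l u b = u * b` -/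
  l : R →L[ℝ] B →L[ℝ] B
  /-- `r u b = b * u` -/
  r : R →L[ℝ] B →L[ℝ] B
  /-- star on `B` -/
  sb : B →L[ℝ] B
  /-- covariant derivative of the base connection -/
  del : R →L[ℝ] B
  /-- action on spinors -/
  a : R →L[ℝ] S →L[ℝ] S
  /-- action on the base spinor -/
  ds : R →L[ℝ] S
  pa : C →L[ℝ] B
  ps : C →L[ℝ] S
  mk' : B × S →L[ℝ] C
  j : L →L[ℝ] R
  q : R →L[ℝ] L
  m_assoc : ∀ u v w, m (m u v) w = m u (m v w)
  st_st : ∀ u, st (st u) = u
  st_m : ∀ u v, st (m u v) = m (st v) (st u)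
  normal : ∀ u, m u (st u) = m (st u) u
  l_m : ∀ u v b, l (m u v) b = l u (l v b)
  r_m : ∀ u v b, r (m u v) b = r v (r u b)
  l_r : ∀ u v b, l u (r v b) = r v (l u b)
  del_m : ∀ u v, del (m u v) = r v (del u) + l u (del v)
  sb_l : ∀ u b, sb (l u b) = r (st u) (sb b)
  sb_r : ∀ u b, sb (r u b) = l (st u) (sb b)
  sb_del : ∀ u, sb (del u) = del (st u)
  a_m : ∀ u v s, a (m u v) s = a u (a v s)
  ds_m : ∀ u v, ds (m u v) = a u (ds v)
  sb_pa : ∀ x, sb (pa x) = -pa x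
  mk_p : ∀ x, mk' (pa x, ps x) = x
  pa_mk : ∀ b s, sb b = -b → pa (mk' (b, s)) = b
  ps_mk : ∀ b s, ps (mk' (b, s)) = s
  st_j : ∀ ξ, st (j ξ) = -j ξ
  q_j : ∀ ξ, q (j ξ) = ξ
  j_q : ∀ u, st u = -u → j (q u) = u

variable {R B S C L : Type*} [NormedAddCommGroup R] [NormedSpace ℝ R]
  [NormedAddCommGroup B] [NormedSpace ℝ B] [NormedAddCommGroup S] [NormedSpace ℝ S]
  [NormedAddCommGroup C] [NormedSpace ℝ C] [NormedAddCommGroup L] [NormedSpace ℝ L]

namespace GA

variable (D : GA R B S C L)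

/-- `(1+u)(1+v) = 1 + o u v`. -/
def o (u v : R) : R := u + v + D.m u v

/-- `(1+u)^*(1+u) - 1`. -/
def nn (u : R) : R := u + D.st u + D.m (D.st u) u

theorem o_assoc (u v w : R) : D.o (D.o u v) w = D.o u (D.o v w) := by
  simp only [o, map_add, ContinuousLinearMap.add_apply, D.m_assoc]; abel

@[simp] theorem o_zero (u : R) : D.o u 0 = u := by simp [o]

@[simp] theorem zero_o (u : R) : D.o 0 u = u := by simp [o]

theorem st_o (u v : R) : D.st (D.o u v) = D.o (D.st v) (D.st u) := by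
  simp only [o, map_add, D.st_m]; abel

theorem nn_eq (u : R) : D.nn u = D.o (D.st u) u := by simp only [o, nn]; abel

theorem nn_eq' (u : R) : D.nn u = D.o u (D.st u) := by simp only [o, nn, D.normal]

theorem st_nn (u : R) : D.st (D.nn u) = D.nn u := by rw [nn_eq, st_o, D.st_st]

theorem nn_o {u v : R} (hu : D.nn u = 0) (hv : D.nn v = 0) : D.nn (D.o u v) = 0 := by
  rw [nn_eq] at *
  rw [st_o, o_assoc, ← D.o_assoc (D.st u), hu, zero_o, hv]

theorem nn_st {u : R} (hu : D.nn u = 0) : D.nn (D.st u) = 0 := by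
  rw [nn_eq, D.st_st, ← nn_eq', hu]

theorem continuous_nn : Continuous D.nn := by unfold nn; fun_prop

theorem contDiff_nn {n : WithTop ℕ∞} : ContDiff ℝ n D.nn := by unfold nn; fun_prop

/-- The gauge group: `ξ` with `1 + ξ` unitary. -/
def Gr : Type _ := {u : R // D.nn u = 0}

variable {D}

/-- The underlying element `ξ = g - 1`. -/
def Gr.v (g : D.Gr) : R := g.1

theorem Gr.nn_v (g : D.Gr) : D.nn g.v = 0 := g.2

@[ext] theorem Gr.ext {g h : D.Gr} (e : g.v = h.v) : g = h := Subtype.ext e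

variable (D)

instance : TopologicalSpace D.Gr := inferInstanceAs (TopologicalSpace {u : R // D.nn u = 0})

instance : MetricSpace D.Gr := inferInstanceAs (MetricSpace {u : R // D.nn u = 0})

instance : Group D.Gr where
  mul g h := ⟨D.o g.v h.v, D.nn_o g.2 h.2⟩
  one := ⟨0, by simp [nn]⟩
  inv g := ⟨D.st g.v, D.nn_st g.2⟩
  mul_assoc g h k := Gr.ext (D.o_assoc _ _ _)
  one_mul g := Gr.ext (D.zero_o _)
  mul_one g := Gr.ext (D.o_zero _)
  inv_mul_cancel g := Gr.ext ((D.nn_eq _).symm.trans g.2)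

variable {D}

@[simp] theorem v_mul (g h : D.Gr) : (g * h).v = D.o g.v h.v := rfl
@[simp] theorem v_one : (1 : D.Gr).v = 0 := rfl
@[simp] theorem v_inv (g : D.Gr) : g⁻¹.v = D.st g.v := rfl

theorem isEmbedding_v : IsEmbedding (Gr.v : D.Gr → R) := IsEmbedding.subtypeVal

@[fun_prop] theorem continuous_v : Continuous (Gr.v : D.Gr → R) := continuous_subtype_val

theorem tendsto_iff_v {ι : Type*} {f : Filter ι} {g : ι → D.Gr} {k : D.Gr} :
    Tendsto g f (𝓝 k) ↔ Tendsto (fun n => (g n).v) f (𝓝 k.v) := tendsto_subtype_rng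

instance : IsTopologicalGroup D.Gr where
  continuous_mul := isEmbedding_v.continuous_iff.2 (by
    show Continuous fun p : D.Gr × D.Gr => D.o p.1.v p.2.v
    unfold o; fun_prop)
  continuous_inv := isEmbedding_v.continuous_iff.2 (by
    show Continuous fun p : D.Gr => D.st p.v
    fun_prop)

variable (D)

/-- left multiplication by `1 + u`. -/
def lo (u : R) (b : B) : B := b + D.l u b

/-- right multiplication by `1 + u`. -/
def ro (u : R) (b : B) : B := b + D.r u b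

/-- (affine) action of `1 + u` on spinors. -/
def ao (u : R) (s : S) : S := s + (D.a u s + D.ds u)

theorem lo_o (u v : R) (b : B) : D.lo (D.o u v) b = D.lo u (D.lo v b) := by
  simp only [lo, o, map_add, ContinuousLinearMap.add_apply, D.l_m]; abel

theorem ro_o (u v : R) (b : B) : D.ro (D.o u v) b = D.ro v (D.ro u b) := by
  simp only [ro, o, map_add, ContinuousLinearMap.add_apply, D.r_m]; abel

theorem ao_o (u v : R) (s : S) : D.ao (D.o u v) s = D.ao u (D.ao v s) := by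
  simp only [ao, o, map_add, ContinuousLinearMap.add_apply, D.a_m, D.ds_m]; abel

theorem lo_ro (u v : R) (b : B) : D.lo u (D.ro v b) = D.ro v (D.lo u b) := by
  simp only [lo, ro, map_add, D.l_r]; abel

@[simp] theorem lo_zero (b : B) : D.lo 0 b = b := by simp [lo]
@[simp] theorem ro_zero (b : B) : D.ro 0 b = b := by simp [ro]
@[simp] theorem ao_zero (s : S) : D.ao 0 s = s := by simp [ao]

theorem lo_sub (u : R) (b c : B) : D.lo u (b - c) = D.lo u b - D.lo u c := by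
  simp only [lo, map_sub]; abel

theorem ro_sub (u : R) (b c : B) : D.ro u (b - c) = D.ro u b - D.ro u c := by
  simp only [ro, map_sub]; abel

theorem del_o (u v : R) : D.del (D.o u v) = D.ro v (D.del u) + D.lo u (D.del v) := by
  simp only [lo, ro, o, map_add, D.del_m]; abel

theorem sb_lo (u : R) (b : B) : D.sb (D.lo u b) = D.ro (D.st u) (D.sb b) := by
  simp only [lo, ro, map_add, D.sb_l]

theorem sb_ro (u : R) (b : B) : D.sb (D.ro u b) = D.lo (D.st u) (D.sb b) := by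
  simp only [lo, ro, map_add, D.sb_r]

/-- The transformed connection form `((1+u) b - δ u) (1+u)^*`. -/
def cn (u : R) (b : B) : B := D.ro (D.st u) (D.lo u b - D.del u)

theorem ro_add (u : R) (b c : B) : D.ro u (b + c) = D.ro u b + D.ro u c := by
  simp only [ro, map_add]; abel

theorem cn_mul (g h : D.Gr) (b : B) : D.cn (g * h).v b = D.cn g.v (D.cn h.v b) := by
  have e : D.ro (D.st h.v) (D.ro h.v (D.del g.v)) = D.del g.v := by
    rw [← D.ro_o h.v, ← nn_eq', h.nn_v, ro_zero]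
  simp only [v_mul, cn, st_o, ro_o, lo_o, del_o, lo_ro, lo_sub, ro_sub, ro_add, e]
  abel

theorem sb_cn {u : R} (hu : D.nn u = 0) {b : B} (hb : D.sb b = -b) :
    D.sb (D.cn u b) = -D.cn u b := by
  have h := congrArg D.del ((D.nn_eq' u).symm.trans hu)
  rw [del_o, map_zero] at h
  rw [cn, sb_ro, D.st_st, map_sub, sb_lo, hb, D.sb_del, lo_sub, ro_sub, lo_ro,
    eq_neg_of_add_eq_zero_right h]
  simp only [lo, ro, map_neg, map_add]; abel

/-- The action formula, for any `u`. -/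
def act (u : R) (x : C) : C := D.mk' (D.cn u (D.pa x), D.ao u (D.ps x))

theorem contDiff_act {n : WithTop ℕ∞} : ContDiff ℝ n fun p : R × C => D.act p.1 p.2 := by
  unfold act cn ao lo ro; fun_prop

theorem pa_act {u : R} (hu : D.nn u = 0) (x : C) : D.pa (D.act u x) = D.cn u (D.pa x) :=
  D.pa_mk _ _ (D.sb_cn hu (D.sb_pa x))

theorem ps_act (u : R) (x : C) : D.ps (D.act u x) = D.ao u (D.ps x) := D.ps_mk _ _

theorem ext_p {x y : C} (h1 : D.pa x = D.pa y) (h2 : D.ps x = D.ps y) : x = y := by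
  rw [← D.mk_p x, h1, h2, D.mk_p]

@[simp] theorem act_zero (x : C) : D.act 0 x = x := by simp [act, cn, D.mk_p]

instance : MulAction D.Gr C where
  smul g x := D.act g.v x
  one_smul x := D.act_zero x
  mul_smul g h x := by
    show D.act (g * h).v x = D.act g.v (D.act h.v x)
    conv_rhs => rw [act, D.pa_act h.nn_v, ps_act, ← cn_mul, ← ao_o]
    rfl

variable {D}

theorem smul_def (g : D.Gr) (x : C) : g • x = D.act g.v x := rfl

theorem pa_smul (g : D.Gr) (x : C) : D.pa (g • x) = D.cn g.v (D.pa x) := D.pa_act g.2 x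

theorem ps_smul (g : D.Gr) (x : C) : D.ps (g • x) = D.ao g.v (D.ps x) := D.ps_act g.v x

instance : ContinuousSMul D.Gr C where
  continuous_smul := (D.contDiff_act (n := 0)).continuous.comp
    ((continuous_v.comp continuous_fst).prodMk continuous_snd)

variable (D)

/-- The linear operator `u ↦ (δ u - u a + b u, u φ)` attached to two configurations
`x = (a, φ)`, `y = (b, ψ)`. -/
def T (x y : C) : R →L[ℝ] B × S :=
  (D.del - D.l.flip (D.pa x) + D.r.flip (D.pa y)).prod (D.a.flip (D.ps x) + D.ds)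

theorem T_apply (x y : C) (u : R) :
    D.T x y u = (D.del u - D.l u (D.pa x) + D.r u (D.pa y), D.a u (D.ps x) + D.ds u) := rfl

theorem continuous_T : Continuous fun p : C × C => D.T p.1 p.2 := by
  have h : (fun p : C × C => D.T p.1 p.2) = fun p : C × C =>
      (ContinuousLinearMap.prodₗᵢ ℝ : ((R →L[ℝ] B) × (R →L[ℝ] S)) ≃ₗᵢ[ℝ] (R →L[ℝ] B × S))
        (D.del - D.l.flip (D.pa p.1) + D.r.flip (D.pa p.2), D.a.flip (D.ps p.1) + D.ds) := rfl
  rw [h]
  exact (LinearIsometryEquiv.continuous _).comp (by fun_prop)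

variable {D}

/-- Gauge equivalence is a LINEAR equation for `g - 1`. -/
theorem smul_eq_iff (g : D.Gr) (x y : C) :
    g • x = y ↔ D.T x y g.v = (D.pa x - D.pa y, D.ps y - D.ps x) := by
  have key : D.cn g.v (D.pa x) = D.pa y ↔ D.lo g.v (D.pa x) - D.del g.v = D.ro g.v (D.pa y) := by
    constructor
    · intro h
      rw [← h, cn, ← ro_o, ← nn_eq, g.nn_v, ro_zero]
    · intro h
      rw [cn, h, ← ro_o, ← nn_eq', g.nn_v, ro_zero]
  rw [T_apply, Prod.mk.injEq]
  constructor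
  · rintro rfl
    refine ⟨?_, by rw [ps_smul, ao]; abel⟩
    have h := key.1 (pa_smul g x).symm
    simp only [lo, ro] at h
    linear_combination (norm := abel) -h
  · rintro ⟨h1, h2⟩
    refine D.ext_p ?_ ?_
    · rw [pa_smul, key]
      simp only [lo, ro]
      linear_combination (norm := abel) -h1
    · rw [ps_smul, ao, h2]; abel

theorem smul_eq_self_iff (g : D.Gr) (x : C) : g • x = x ↔ D.T x x g.v = 0 := by
  rw [smul_eq_iff, sub_self, sub_self]; rfl

end GA

end Crest.Agent.X212.Grp76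
end
end

-- ▼ part X212/Grp76/Prop
section

/-! Chart of the gauge group, infinitesimal action, properness from one estimate. -/

set_option autoImplicit false

noncomputable section

open Set Filter Topology
open scoped ContDiff

namespace Crest.Agent.X212.Grp76

/-- Abstract compactness: approximate solutions of a linear equation with an estimate modulo a
compact operator. -/
theorem exists_subseq_of_est {R Y Z : Type*} [NormedAddCommGroup R] [NormedSpace ℝ R]
    [CompleteSpace R] [NormedAddCommGroup Y] [NormedSpace ℝ Y] [NormedAddCommGroup Z]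
    [NormedSpace ℝ Z] {T : R →L[ℝ] Y} {K : R →L[ℝ] Z} (hK : IsCompactOperator K) {c : ℝ}
    (hest : ∀ u, ‖u‖ ≤ c * (‖T u‖ + ‖K u‖)) {Tn : ℕ → R →L[ℝ] Y} (hT : Tendsto Tn atTop (𝓝 T))
    {u : ℕ → R} {y : Y} (hy : Tendsto (fun n => Tn n (u n)) atTop (𝓝 y)) {M : ℝ}
    (hM : ∀ n, ‖K (u n)‖ ≤ M) :
    ∃ (φ : ℕ → ℕ) (w : R), StrictMono φ ∧ Tendsto (u ∘ φ) atTop (𝓝 w) := by
  have hest' : ∀ u, ‖u‖ ≤ (|c| + 1) * (‖T u‖ + ‖K u‖) := fun u =>
    (hest u).trans (mul_le_mul_of_nonneg_right ((le_abs_self c).trans (by linarith))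
      (by positivity))
  set c' := |c| + 1 with hc'
  have hc0 : 0 < c' := by positivity
  have h0 : Tendsto (fun n => ‖T - Tn n‖) atTop (𝓝 0) := by
    simpa using (tendsto_const_nhds (x := T)).sub hT |>.norm
  have hle : ∀ n, ‖T (u n) - Tn n (u n)‖ ≤ ‖T - Tn n‖ * ‖u n‖ := fun n => (T - Tn n).le_opNorm _
  have hb : ∀ᶠ n in atTop, ‖u n‖ ≤ 2 * c' * (‖y‖ + 1 + M) := by
    filter_upwards [h0.eventually (gt_mem_nhds (show (0 : ℝ) < 1 / (2 * c') by positivity)),
      hy.norm.eventually (gt_mem_nhds (lt_add_one ‖y‖))] with n h1 h2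
    have h3 : ‖T (u n)‖ ≤ ‖T - Tn n‖ * ‖u n‖ + ‖Tn n (u n)‖ :=
      (norm_le_norm_sub_add _ (Tn n (u n))).trans (by linarith [hle n])
    have h4 : c' * (‖T - Tn n‖ * ‖u n‖) ≤ ‖u n‖ / 2 := by
      have : c' * ‖T - Tn n‖ ≤ 1 / 2 := by
        rw [lt_div_iff₀ (by positivity)] at h1
        linarith
      nlinarith [norm_nonneg (u n)]
    have h5 := hest' (u n)
    have h6 : c' * (‖T (u n)‖ + ‖K (u n)‖) ≤
        c' * (‖T - Tn n‖ * ‖u n‖) + c' * (‖y‖ + 1 + M) := by
      rw [← mul_add]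
      exact mul_le_mul_of_nonneg_left (by linarith [hM n]) hc0.le
    linarith
  set ρ := 2 * c' * (‖y‖ + 1 + M)
  have hTu : Tendsto (fun n => T (u n)) atTop (𝓝 y) := by
    have h1 : Tendsto (fun n => T (u n) - Tn n (u n)) atTop (𝓝 0) := by
      refine squeeze_zero_norm' ?_ (by simpa using h0.mul_const ρ)
      filter_upwards [hb] with n hn
      exact (hle n).trans (mul_le_mul_of_nonneg_left hn (norm_nonneg _))
    simpa using h1.add hy
  obtain ⟨Q, hQ, hQ'⟩ := hK.image_subset_compact_of_bounded (Metric.isBounded_closedBall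
    (x := (0 : R)) (r := ρ))
  obtain ⟨z, -, φ, hφ, hz⟩ := hQ.tendsto_subseq' (x := fun n => K (u n))
    (hb.mono fun n hn => hQ' ⟨u n, by simpa using hn, rfl⟩).frequently
  have hc : CauchySeq (u ∘ φ) := by
    have h1 := (hTu.comp hφ.tendsto_atTop).cauchySeq
    have h2 := hz.cauchySeq
    rw [Metric.cauchySeq_iff] at h1 h2 ⊢
    intro ε hε
    obtain ⟨N1, hN1⟩ := h1 (ε / (2 * c')) (by positivity)
    obtain ⟨N2, hN2⟩ := h2 (ε / (2 * c')) (by positivity)
    refine ⟨max N1 N2, fun a ha b hb => ?_⟩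
    have e1 := hN1 a (le_of_max_le_left ha) b (le_of_max_le_left hb)
    have e2 := hN2 a (le_of_max_le_right ha) b (le_of_max_le_right hb)
    simp only [Function.comp, dist_eq_norm] at e1 e2 ⊢
    have e3 := hest' (u (φ a) - u (φ b))
    rw [map_sub, map_sub] at e3
    refine e3.trans_lt ?_
    calc _ < c' * (ε / (2 * c') + ε / (2 * c')) := mul_lt_mul_of_pos_left (by linarith) hc0
      _ = ε := by field_simp; ring
  obtain ⟨w, hw⟩ := cauchySeq_tendsto_of_complete hc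
  exact ⟨φ, w, hφ, hw⟩

variable {R B S C L : Type*} [NormedAddCommGroup R] [NormedSpace ℝ R]
  [NormedAddCommGroup B] [NormedSpace ℝ B] [NormedAddCommGroup S] [NormedSpace ℝ S]
  [NormedAddCommGroup C] [NormedSpace ℝ C] [NormedAddCommGroup L] [NormedSpace ℝ L]

/-- Properness of an action at the pair `(x, y)`, sequential form. -/
def PropAt (G : Type*) [Group G] [TopologicalSpace G] {C : Type*} [TopologicalSpace C]
    [MulAction G C] (x y : C) : Prop :=
  ∀ (xn : ℕ → C) (g : ℕ → G), Tendsto xn atTop (𝓝 x) →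
    Tendsto (fun n => g n • xn n) atTop (𝓝 y) →
    ∃ (φ : ℕ → ℕ) (k : G), StrictMono φ ∧ Tendsto (g ∘ φ) atTop (𝓝 k)

namespace GA

variable (D : GA R B S C L)

/-- The estimate that gives properness at `(x, y)`: `T x y` is bounded below modulo a compact
operator which is bounded on the gauge group. -/
def Est (x y : C) {Z : Type*} [NormedAddCommGroup Z] [NormedSpace ℝ Z] (K : R →L[ℝ] Z) : Prop :=
  IsCompactOperator K ∧ (∃ M, ∀ g : D.Gr, ‖K g.v‖ ≤ M) ∧
    ∃ c, ∀ u, ‖u‖ ≤ c * (‖D.T x y u‖ + ‖K u‖)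

theorem isClosed_nn : IsClosed {u : R | D.nn u = 0} :=
  isClosed_eq D.continuous_nn continuous_const

variable {D}

theorem Est.propAt [CompleteSpace R] {x y : C} {Z : Type*} [NormedAddCommGroup Z]
    [NormedSpace ℝ Z] {K : R →L[ℝ] Z} (h : D.Est x y K) : PropAt D.Gr x y := by
  obtain ⟨hK, ⟨M, hM⟩, c, hc⟩ := h
  intro xn g hx hy
  obtain ⟨yn, hyn⟩ : ∃ yn : ℕ → C, ∀ n, g n • xn n = yn n := ⟨_, fun _ => rfl⟩
  simp only [hyn] at hy
  have h0 := (D.continuous_T.tendsto (x, y)).comp (hx.prodMk_nhds hy)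
  have h1 : Tendsto (fun n => D.T (xn n) (yn n)) atTop (𝓝 (D.T x y)) := h0
  have h2 : Tendsto (fun n => D.T (xn n) (yn n) (g n).v) atTop
      (𝓝 (D.pa x - D.pa y, D.ps y - D.ps x)) := by
    have h3 : (fun n => D.T (xn n) (yn n) (g n).v) =
        fun n => (D.pa (xn n) - D.pa (yn n), D.ps (yn n) - D.ps (xn n)) :=
      funext fun n => (smul_eq_iff (g n) (xn n) _).1 (hyn n)
    rw [h3]
    exact (((D.pa.continuous.tendsto x).comp hx).sub
      ((D.pa.continuous.tendsto y).comp hy)).prodMk_nhds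
      (((D.ps.continuous.tendsto y).comp hy).sub ((D.ps.continuous.tendsto x).comp hx))
  obtain ⟨φ, w, hφ, hw⟩ := exists_subseq_of_est hK hc h1 h2 fun n => hM (g n)
  have hw0 : D.nn w = 0 :=
    D.isClosed_nn.mem_of_tendsto hw (Eventually.of_forall fun n => (g (φ n)).nn_v)
  exact ⟨φ, ⟨w, hw0⟩, hφ, tendsto_iff_v.2 hw⟩

variable (D)

/-- skew part plus half the defect of unitarity: a local diffeomorphism at `0`. -/
def Ψ (u : R) : R := (1 / 2 : ℝ) • (u - D.st u) + (1 / 2 : ℝ) • D.nn u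

theorem contDiff_Ψ : ContDiff ℝ ω D.Ψ := by
  have := D.contDiff_nn (n := ω)
  unfold Ψ; fun_prop

@[simp] theorem Ψ_zero : D.Ψ 0 = 0 := by simp [Ψ, nn]

theorem hasStrict_Ψ : HasStrictFDerivAt D.Ψ
    (ContinuousLinearEquiv.refl ℝ R : R →L[ℝ] R) 0 := by
  have h : D.Ψ = fun u => u + (1 / 2 : ℝ) • D.m (D.st u) u := by
    funext u
    simp only [Ψ, nn]
    module
  have h1 : HasStrictFDerivAt (fun u => D.m (D.st u) u) (0 : R →L[ℝ] R) 0 := by
    have h2 := (D.m.hasStrictFDerivAt_of_bilinear (D.st.hasStrictFDerivAt (x := 0))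
      (hasStrictFDerivAt_id (0 : R)))
    refine h2.congr_fderiv ?_
    ext v
    simp
  rw [h]
  refine ((hasStrictFDerivAt_id (0 : R)).add (h1.const_smul (1 / 2 : ℝ))).congr_fderiv ?_
  simp

theorem nn_eq_of_Ψ {u : R} {ξ : L} (h : D.Ψ u = D.j ξ) : D.nn u = 0 := by
  have h1 := congrArg D.st h
  rw [D.st_j, ← h] at h1
  simp only [Ψ, map_add, map_smul, map_sub, D.st_st, D.st_nn] at h1
  linear_combination (norm := module) h1

variable [CompleteSpace R]

/-- local inverse of `Ψ`. -/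
def ψ : R → R := D.hasStrict_Ψ.localInverse _ _ _

theorem ψ_zero : D.ψ 0 = 0 := by
  have := D.hasStrict_Ψ.localInverse_apply_image
  rwa [Ψ_zero] at this

theorem contDiffAt_ψ : ContDiffAt ℝ ω D.ψ 0 := by
  have := (D.contDiff_Ψ.contDiffAt (x := 0)).to_localInverse D.hasStrict_Ψ.hasFDerivAt
    (by simp)
  rwa [Ψ_zero] at this

theorem hasStrict_ψ : HasStrictFDerivAt D.ψ (ContinuousLinearMap.id ℝ R) 0 := by
  have := D.hasStrict_Ψ.to_localInverse
  rwa [Ψ_zero] at this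

theorem ev_nn : ∀ᶠ ξ in 𝓝 (0 : L), D.nn (D.ψ (D.j ξ)) = 0 := by
  have h := D.hasStrict_Ψ.eventually_right_inverse
  rw [Ψ_zero] at h
  have h2 : Tendsto D.j (𝓝 0) (𝓝 0) := D.j.continuous.tendsto' _ _ (map_zero _)
  exact (h2.eventually h).mono fun ξ hξ => D.nn_eq_of_Ψ hξ

open Classical in
/-- The chart of the gauge group at `1`. -/
def e (ξ : L) : D.Gr := if h : D.nn (D.ψ (D.j ξ)) = 0 then ⟨_, h⟩ else 1

theorem ev_e : ∀ᶠ ξ in 𝓝 (0 : L), (D.e ξ).v = D.ψ (D.j ξ) :=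
  D.ev_nn.mono fun ξ h => by rw [e, dif_pos h]; rfl

theorem e_zero : D.e 0 = 1 := Gr.ext (by rw [D.ev_e.self_of_nhds, map_zero, ψ_zero, v_one])

theorem hasStrict_e : HasStrictFDerivAt (fun ξ => (D.e ξ).v) D.j 0 := by
  have h : HasStrictFDerivAt D.ψ (ContinuousLinearMap.id ℝ R) (D.j 0) := by
    simpa using D.hasStrict_ψ
  exact (h.comp 0 D.j.hasStrictFDerivAt).congr_of_eventuallyEq (D.ev_e.mono fun _ h => h.symm)

theorem contDiffAt_e : ContDiffAt ℝ ω (fun ξ => (D.e ξ).v) 0 := by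
  have h : ContDiffAt ℝ ω D.ψ (D.j 0) := by simpa using D.contDiffAt_ψ
  exact (h.comp 0 D.j.contDiff.contDiffAt).congr_of_eventuallyEq D.ev_e

theorem image_e_mem {U : Set L} (hU : U ∈ 𝓝 (0 : L)) : D.e '' U ∈ 𝓝 (1 : D.Gr) := by
  have hv : Tendsto (Gr.v : D.Gr → R) (𝓝 1) (𝓝 0) := continuous_v.tendsto' _ _ v_one
  have hc : Tendsto (fun g : D.Gr => D.q ((1 / 2 : ℝ) • (g.v - D.st g.v))) (𝓝 1) (𝓝 0) :=
    Continuous.tendsto' (by fun_prop) _ _ (by simp)
  filter_upwards [hv.eventually D.hasStrict_Ψ.eventually_left_inverse, hc.eventually hU,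
    hc.eventually D.ev_e] with g h1 h2 h3
  refine ⟨_, h2, Gr.ext ?_⟩
  rw [h3, D.j_q _ (by simp [D.st_st, ← smul_neg])]
  have : D.Ψ g.v = (1 / 2 : ℝ) • (g.v - D.st g.v) := by simp [Ψ, g.nn_v]
  rw [← this]
  exact h1

omit [CompleteSpace R] in
/-- The infinitesimal action `ξ ↦ (-δ ξ + ξ a - a ξ, ξ φ)`. -/
def d (x : C) : L →L[ℝ] C :=
  D.mk'.comp ((((-ContinuousLinearMap.id ℝ B).prodMap (ContinuousLinearMap.id ℝ S)).comp
    (D.T x x)).comp D.j)

omit [CompleteSpace R] in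
theorem d_apply (x : C) (ξ : L) : D.d x ξ = D.mk' (-(D.del (D.j ξ) - D.l (D.j ξ) (D.pa x) +
    D.r (D.j ξ) (D.pa x)), D.a (D.j ξ) (D.ps x) + D.ds (D.j ξ)) := rfl

omit [CompleteSpace R] in
theorem pa_d (x : C) (ξ : L) : D.pa (D.d x ξ) =
    -(D.del (D.j ξ) - D.l (D.j ξ) (D.pa x) + D.r (D.j ξ) (D.pa x)) := by
  rw [d_apply, D.pa_mk]
  simp only [map_neg, map_add, map_sub, D.sb_del, D.sb_l, D.sb_r, D.st_j, D.sb_pa,
    ContinuousLinearMap.neg_apply]
  abel

omit [CompleteSpace R] in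
theorem ps_d (x : C) (ξ : L) : D.ps (D.d x ξ) = D.a (D.j ξ) (D.ps x) + D.ds (D.j ξ) := by
  rw [d_apply, D.ps_mk]

omit [CompleteSpace R] in
theorem d_eq_zero_iff (x : C) (ξ : L) : D.d x ξ = 0 ↔ D.T x x (D.j ξ) = 0 := by
  rw [T_apply, Prod.mk_eq_zero, ← ps_d, ← neg_eq_zero (a := D.del _ - _ + _), ← pa_d]
  exact ⟨fun h => by simp [h], fun h => D.ext_p (by simpa using h.1) (by simpa using h.2)⟩

theorem contDiffAt_act (x : C) : ContDiffAt ℝ ω (fun q : L × C => D.e q.1 • q.2) (0, x) :=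
  (D.contDiff_act (n := ω)).contDiffAt.comp (0, x)
    ((D.contDiffAt_e.comp (0, x) contDiffAt_fst).prodMk contDiffAt_snd)

theorem hasStrict_act (x : C) : HasStrictFDerivAt (fun q : L × C => D.e q.1 • q.2)
    ((D.d x).coprod (ContinuousLinearMap.id ℝ C)) (0, x) := by
  have h0 := (D.contDiffAt_act x).hasStrictFDerivAt (by simp)
  refine h0.congr_fderiv (HasFDerivAt.fderiv ?_)
  have he : HasFDerivAt (fun q : L × C => (D.e q.1).v) (D.j.comp (ContinuousLinearMap.fst ℝ L C))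
      (0, x) := HasFDerivAt.comp (f := Prod.fst) ((0, x) : L × C) D.hasStrict_e.hasFDerivAt
        hasFDerivAt_fst
  have ha : HasFDerivAt (fun q : L × C => D.pa q.2) (D.pa.comp (ContinuousLinearMap.snd ℝ L C))
      (0, x) := D.pa.hasFDerivAt.comp ((0, x) : L × C) hasFDerivAt_snd
  have hs : HasFDerivAt (fun q : L × C => D.ps q.2) (D.ps.comp (ContinuousLinearMap.snd ℝ L C))
      (0, x) := D.ps.hasFDerivAt.comp ((0, x) : L × C) hasFDerivAt_snd
  have h1 := (ha.add (D.l.hasFDerivAt_of_bilinear he ha)).sub (D.del.hasFDerivAt.comp _ he)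
  have h2 := h1.add (D.r.hasFDerivAt_of_bilinear (D.st.hasFDerivAt.comp _ he) h1)
  have h3 := hs.add ((D.a.hasFDerivAt_of_bilinear he hs).add (D.ds.hasFDerivAt.comp _ he))
  have h4 := D.mk'.hasFDerivAt.comp _ (h2.prodMk h3)
  refine HasFDerivAt.congr_fderiv h4 ?_
  refine ContinuousLinearMap.ext fun ⟨ξ, y⟩ => ?_
  conv_rhs => rw [ContinuousLinearMap.coprod_apply, d_apply, ContinuousLinearMap.id_apply,
    ← D.mk_p y, ← map_add]
  simp only [ContinuousLinearMap.comp_apply, ContinuousLinearMap.prod_apply]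
  congr 1
  simp [e_zero, D.st_j]
  constructor <;> abel

end GA

end Crest.Agent.X212.Grp76
end
end

-- ▼ part X212/Grp76/Ext

/-! Slice data for the gauge group and for the gauge group times the circle. -/

set_option autoImplicit false

noncomputable section

open Set Filter Topology Function
open scoped ContDiff

namespace Crest.Agent.X212.Grp76
open Slc61

variable {R B S C L H : Type*} [NormedAddCommGroup R] [NormedSpace ℝ R]
  [NormedAddCommGroup B] [NormedSpace ℝ B] [NormedAddCommGroup S] [NormedSpace ℝ S]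
  [NormedAddCommGroup C] [NormedSpace ℝ C] [NormedAddCommGroup L] [NormedSpace ℝ L]
  [NormedAddCommGroup H] [NormedSpace ℝ H]

theorem closedOrb_of_propAt {G : Type*} [Group G] [TopologicalSpace G] [MulAction G C]
    [ContinuousSMul G C] {Z : Set C} (h : ∀ a ∈ Z, ∀ b ∈ Z, PropAt G a b) : ClosedOrb G Z :=
  closedOrb_of_proper fun x g a b _ ha hb h1 h2 => h a ha b hb x g h1 h2

/-- properness is invariant under the group -/
theorem PropAt.smul {G : Type*} [Group G] [TopologicalSpace G] [IsTopologicalGroup G]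
    [MulAction G C] [ContinuousSMul G C] {a b : C} (h : PropAt G a b) (g k : G) :
    PropAt G (g • a) (k • b) := by
  intro xn gn h1 h2
  obtain ⟨φ, w, hφ, hw⟩ := h (fun n => g⁻¹ • xn n) (fun n => k⁻¹ * gn n * g)
    (by simpa using h1.const_smul g⁻¹) (by simpa [mul_smul] using h2.const_smul k⁻¹)
  refine ⟨φ, k * w * g⁻¹, hφ, ((hw.const_mul k).mul_const g⁻¹).congr fun n => ?_⟩
  simp [mul_assoc]

theorem closedOrb_sat {G : Type*} [Group G] [TopologicalSpace G] [IsTopologicalGroup G]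
    [MulAction G C] [ContinuousSMul G C] {Z Z' : Set C} (h : ∀ a ∈ Z, ∀ b ∈ Z, PropAt G a b)
    (hZ : ∀ x ∈ Z', ∃ g : G, ∃ a ∈ Z, g • a = x) : ClosedOrb G Z' :=
  closedOrb_of_propAt fun a ha b hb => by
    obtain ⟨g, a', ha', rfl⟩ := hZ a ha
    obtain ⟨k, b', hb', rfl⟩ := hZ b hb
    exact (h a' ha' b' hb').smul g k

namespace GA
variable (D : GA R B S C L) [CompleteSpace R]

theorem tame {x : C} (hp : PropAt D.Gr x x) (hs : ∀ g : D.Gr, g • x = x → ∀ y : C, g • y = y) :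
    Tame D.e x := tame_of_proper hp hs fun _ hU => D.image_e_mem hU

/-- Slice data for the gauge group. -/
def slice (x : C) (σ : C →L[ℝ] H) (hb : Bijective (σ.comp (D.d x))) (hp : PropAt D.Gr x x)
    (hs : ∀ g : D.Gr, g • x = x → ∀ y : C, g • y = y) : SliceData D.Gr L H x where
  e := D.e
  d := D.d x
  γ y := σ (y - x)
  σ := σ
  e_zero := D.e_zero
  act := D.hasStrict_act x
  gf := by
    simpa using σ.hasStrictFDerivAt.comp x ((hasStrictFDerivAt_id x).sub_const x)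
  gf0 := by simp
  bij := hb
  tame := D.tame hp hs

theorem exists_slice (x : C) (σ : C →L[ℝ] H) (hb : Bijective (σ.comp (D.d x)))
    (hp : PropAt D.Gr x x) (hs : ∀ g : D.Gr, g • x = x → ∀ y : C, g • y = y) :
    ∃ Q : SliceData D.Gr L H x, ContDiff ℝ ∞ Q.γ ∧ Q.σ = σ ∧ Q.d = D.d x ∧
      ∀ y, Q.γ y = σ (y - x) :=
  ⟨D.slice x σ hb hp hs, σ.contDiff.comp (contDiff_id.sub contDiff_const), rfl, rfl, fun _ => rfl⟩

end GA

/-- A gauge algebra with a commuting linear circle action. -/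
structure GX (R B S C L : Type*) [NormedAddCommGroup R] [NormedSpace ℝ R]
    [NormedAddCommGroup B] [NormedSpace ℝ B] [NormedAddCommGroup S] [NormedSpace ℝ S]
    [NormedAddCommGroup C] [NormedSpace ℝ C] [NormedAddCommGroup L] [NormedSpace ℝ L]
    extends GA R B S C L where
  ρ : Circle →* (C →L[ℝ] C)
  J : C →L[ℝ] C
  cont : Continuous ρ
  der : HasStrictFDerivAt (fun t : ℝ => ρ (Circle.exp t))
    (ContinuousLinearMap.toSpanSingleton ℝ J) 0
  comm : ∀ u ζ x, toGA.nn u = 0 → toGA.act u (ρ ζ x) = ρ ζ (toGA.act u x)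

namespace GX
variable (X : GX R B S C L)

/-- The gauge group times the circle. -/
def Gx : Type _ := X.toGA.Gr × Circle

instance : Group X.Gx := inferInstanceAs (Group (X.toGA.Gr × Circle))
instance : TopologicalSpace X.Gx := inferInstanceAs (TopologicalSpace (X.toGA.Gr × Circle))
instance : IsTopologicalGroup X.Gx := inferInstanceAs (IsTopologicalGroup (X.toGA.Gr × Circle))

variable {X}

/-- constructor -/
def mk₂ (g : X.toGA.Gr) (ζ : Circle) : X.Gx := (g, ζ)
/-- the gauge transformation -/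
def Gx.g (a : X.Gx) : X.toGA.Gr := a.1
/-- the phase -/
def Gx.ζ (a : X.Gx) : Circle := a.2

@[simp] theorem g_mk (g : X.toGA.Gr) (ζ : Circle) : (mk₂ g ζ).g = g := rfl
@[simp] theorem ζ_mk (g : X.toGA.Gr) (ζ : Circle) : (mk₂ g ζ).ζ = ζ := rfl
@[simp] theorem g_mul (a b : X.Gx) : (a * b).g = a.g * b.g := rfl
@[simp] theorem ζ_mul (a b : X.Gx) : (a * b).ζ = a.ζ * b.ζ := rfl
@[simp] theorem g_one : (1 : X.Gx).g = 1 := rfl
@[simp] theorem ζ_one : (1 : X.Gx).ζ = 1 := rfl
@[simp] theorem g_inv (a : X.Gx) : a⁻¹.g = a.g⁻¹ := rfl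
@[simp] theorem ζ_inv (a : X.Gx) : a⁻¹.ζ = a.ζ⁻¹ := rfl

theorem smul_ρ (g : X.toGA.Gr) (ζ : Circle) (x : C) : g • X.ρ ζ x = X.ρ ζ (g • x) :=
  X.comm _ _ _ g.nn_v

instance : MulAction X.Gx C where
  smul a x := a.g • X.ρ a.ζ x
  one_smul x := by
    show (1 : X.toGA.Gr) • X.ρ 1 x = x
    simp
  mul_smul a b x := by
    show (a.g * b.g) • X.ρ (a.ζ * b.ζ) x = a.g • X.ρ a.ζ (b.g • X.ρ b.ζ x)
    rw [mul_smul, map_mul, ← smul_ρ]; rfl

theorem smul_def (a : X.Gx) (x : C) : a • x = a.g • X.ρ a.ζ x := rfl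

instance : ContinuousSMul X.Gx C where
  continuous_smul := by
    have h1 : Continuous fun p : X.Gx × C => p.1.g := continuous_fst.comp continuous_fst
    have h2 : Continuous fun p : X.Gx × C => X.ρ p.1.ζ :=
      X.cont.comp (continuous_snd.comp continuous_fst)
    exact h1.smul (h2.clm_apply continuous_snd)

theorem propAt {x y : C} (h : ∀ ζ, PropAt X.toGA.Gr (X.ρ ζ x) y) : PropAt X.Gx x y := by
  intro xn a h1 h2
  obtain ⟨ζ, φ, hφ, hζ⟩ := CompactSpace.tendsto_subseq fun n => (a n).ζ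
  have h3 : Tendsto (fun n => X.ρ (a (φ n)).ζ (xn (φ n))) atTop (𝓝 (X.ρ ζ x)) :=
    ((isBoundedBilinearMap_apply.continuous.tendsto (X.ρ ζ, x)).comp
      (((X.cont.tendsto ζ).comp hζ).prodMk_nhds (h1.comp hφ.tendsto_atTop)) :)
  obtain ⟨ψ, k, hψ, hk⟩ := h ζ _ (fun n => (a (φ n)).g) h3 (h2.comp hφ.tendsto_atTop)
  exact ⟨φ ∘ ψ, mk₂ k ζ, hφ.comp hψ, hk.prodMk_nhds (hζ.comp hψ.tendsto_atTop)⟩

variable (X) [CompleteSpace R]

/-- chart -/
def e (q : L × ℝ) : X.Gx := mk₂ (X.toGA.e q.1) (Circle.exp q.2)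

omit [CompleteSpace R] in
/-- infinitesimal action -/
def d (x : C) : L × ℝ →L[ℝ] C :=
  (X.toGA.d x).coprod (ContinuousLinearMap.toSpanSingleton ℝ (X.J x))

omit [CompleteSpace R] in
theorem d_apply (x : C) (q : L × ℝ) : X.d x q = X.toGA.d x q.1 + q.2 • X.J x := rfl

theorem e_zero : X.e 0 = 1 := by
  rw [e, Prod.fst_zero, Prod.snd_zero, X.toGA.e_zero, Circle.exp_zero]; rfl

theorem hasStrict_act (x : C) : HasStrictFDerivAt (fun q : (L × ℝ) × C => X.e q.1 • q.2)
    ((X.d x).coprod (ContinuousLinearMap.id ℝ C)) (0, x) := by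
  have h1 : HasStrictFDerivAt (fun q : (L × ℝ) × C => X.ρ (Circle.exp q.1.2))
      ((ContinuousLinearMap.toSpanSingleton ℝ X.J).comp
        ((ContinuousLinearMap.snd ℝ L ℝ).comp (ContinuousLinearMap.fst ℝ (L × ℝ) C))) (0, x) :=
    HasStrictFDerivAt.comp (f := fun q : (L × ℝ) × C => q.1.2) ((0, x) : (L × ℝ) × C) X.der
      ((ContinuousLinearMap.snd ℝ L ℝ).comp
        (ContinuousLinearMap.fst ℝ (L × ℝ) C)).hasStrictFDerivAt
  have h2 := h1.clm_apply (hasStrictFDerivAt_snd (𝕜 := ℝ) (p := ((0, x) : (L × ℝ) × C)))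
  have h3 := (((ContinuousLinearMap.fst ℝ L ℝ).comp
    (ContinuousLinearMap.fst ℝ (L × ℝ) C)).hasStrictFDerivAt (x := (0, x))).prodMk h2
  have h4 := X.toGA.hasStrict_act x
  have h5 := HasStrictFDerivAt.comp (g := fun q : L × C => X.toGA.e q.1 • q.2)
    ((0, x) : (L × ℝ) × C) (by simpa using h4) h3
  refine h5.congr_fderiv (ContinuousLinearMap.ext fun q => ?_)
  simp [d_apply, add_assoc, add_comm]

theorem image_e_mem {U : Set (L × ℝ)} (hU : U ∈ 𝓝 (0 : L × ℝ)) : X.e '' U ∈ 𝓝 (1 : X.Gx) := by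
  obtain ⟨U1, h1, U2, h2, h⟩ := mem_nhds_prod_iff.1 hU
  have h3 : Circle.exp '' U2 ∈ 𝓝 (1 : Circle) := by
    rw [← Circle.exp_zero]
    exact isLocalHomeomorph_circleExp.isOpenMap.image_mem_nhds h2
  refine mem_of_superset (prod_mem_nhds (X.toGA.image_e_mem h1) h3) ?_
  rintro ⟨_, _⟩ ⟨⟨ξ, hξ, rfl⟩, ⟨t, ht, rfl⟩⟩
  exact ⟨(ξ, t), h ⟨hξ, ht⟩, rfl⟩

theorem tame {x : C} (hp : PropAt X.Gx x x) (hs : ∀ a : X.Gx, a • x = x → ∀ y : C, a • y = y) :
    Tame X.e x := tame_of_proper hp hs fun _ hU => X.image_e_mem hU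

/-- Slice data for the extended group. -/
def slice (x : C) (σ : C →L[ℝ] H) (hb : Bijective (σ.comp (X.d x))) (hp : PropAt X.Gx x x)
    (hs : ∀ a : X.Gx, a • x = x → ∀ y : C, a • y = y) : SliceData X.Gx (L × ℝ) H x where
  e := X.e
  d := X.d x
  γ y := σ (y - x)
  σ := σ
  e_zero := X.e_zero
  act := X.hasStrict_act x
  gf := by
    simpa using σ.hasStrictFDerivAt.comp x ((hasStrictFDerivAt_id x).sub_const x)
  gf0 := by simp
  bij := hb
  tame := X.tame hp hs

omit [CompleteSpace R] in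
/-- A row for the circle direction which kills the gauge directions. -/
theorem exists_row [CompleteSpace L] [CompleteSpace H] {d : L →L[ℝ] C} {σ : C →L[ℝ] H}
    (hb : Bijective (σ.comp d)) {v : C} (hv : ∀ ξ, d ξ ≠ v) :
    ∃ ℓ : C →L[ℝ] ℝ, (∀ ξ, ℓ (d ξ) = 0) ∧ ℓ v = 1 := by
  let A : L ≃L[ℝ] H := ContinuousLinearEquiv.ofBijective (σ.comp d)
    (LinearMap.ker_eq_bot.2 hb.1) (LinearMap.range_eq_top.2 hb.2)
  let π : C →L[ℝ] C := ContinuousLinearMap.id ℝ C - d.comp ((A.symm : H →L[ℝ] L).comp σ)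
  have hπ : π v ≠ 0 := fun h => hv _ (sub_eq_zero.1 h).symm
  obtain ⟨f, -, hf⟩ := exists_dual_vector ℝ (π v) (norm_ne_zero_iff.2 hπ)
  refine ⟨‖π v‖⁻¹ • f.comp π, fun ξ => ?_, ?_⟩
  · have : π (d ξ) = 0 := by
      have h : A.symm (σ (d ξ)) = ξ := A.symm_apply_apply ξ
      simp [π, h]
    simp [this]
  · simp [hf, hπ]

omit [CompleteSpace R] in
theorem bij_row {x : C} {σ : C →L[ℝ] H} (hb : Bijective (σ.comp (X.toGA.d x))) {ℓ : C →L[ℝ] ℝ}
    (h0 : ∀ ξ, ℓ (X.toGA.d x ξ) = 0) (h1 : ℓ (X.J x) = 1) :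
    Bijective ((σ.prod ℓ).comp (X.d x)) := by
  have key : ∀ q : L × ℝ, (σ.prod ℓ).comp (X.d x) q =
      (σ.comp (X.toGA.d x) q.1 + q.2 • σ (X.J x), q.2) := fun q => by
    simp [d_apply, h0, h1]
  constructor
  · rw [injective_iff_map_eq_zero]
    rintro ⟨ξ, t⟩ h
    rw [key, Prod.mk_eq_zero] at h
    obtain ⟨h2, rfl⟩ := h
    have : ξ = 0 := hb.1 (by simpa using h2)
    simp [this]
  · rintro ⟨w, t⟩
    obtain ⟨ξ, hξ⟩ := hb.2 (w - t • σ (X.J x))
    exact ⟨(ξ, t), by rw [key, hξ]; simp⟩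

/-- **Slice data for `G × S¹`** from the Coulomb row of the gauge group. -/
theorem exists_slice [CompleteSpace L] [CompleteSpace H] (x : C) (σ : C →L[ℝ] H)
    (hb : Bijective (σ.comp (X.toGA.d x))) (hv : ∀ ξ, X.toGA.d x ξ ≠ X.J x)
    (hp : PropAt X.Gx x x) (hs : ∀ a : X.Gx, a • x = x → ∀ y : C, a • y = y) :
    ∃ (ℓ : C →L[ℝ] ℝ) (Q : SliceData X.Gx (L × ℝ) (H × ℝ) x), ContDiff ℝ ∞ Q.γ ∧
      Q.σ = σ.prod ℓ ∧ Q.d = X.d x ∧ ∀ y, Q.γ y = (σ (y - x), ℓ (y - x)) := by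
  obtain ⟨ℓ, h0, h1⟩ := exists_row hb hv
  exact ⟨ℓ, X.slice x (σ.prod ℓ) (X.bij_row hb h0 h1) hp hs,
    (σ.prod ℓ).contDiff.comp (contDiff_id.sub contDiff_const), rfl, rfl, fun _ => rfl⟩

end GX

end Crest.Agent.X212.Grp76
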