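import Crest.Agent.X212.Grp76.Gm
import Crest.Agent.X212.Grp76.Flo

-- ▼ part X212/Grp76/Gc
section

/-! The gauge group with the circle. -/

set_option autoImplicit false
set_option linter.unusedSectionVars false
noncomputable section
open scoped Manifold ContDiff Topology InnerProductSpace
open MeasureTheory Set Function Filter

namespace Crest.Agent.X212.Grp76
open An An.Pre Sob92 Wz78 Std94 Mod61

variable {E : Type} [NormedAddCommGroup E] [NormedSpace ℝ E] [FiniteDimensional ℝ E]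
  [MeasurableSpace E] [BorelSpace E]
  {HM : Type} [TopologicalSpace HM] {I : ModelWithCorners ℝ E HM} [I.Boundaryless]
  {M : Type} [TopologicalSpace M] [ChartedSpace HM M] [IsManifold I ∞ M]
  [MeasurableSpace M] [T2Space M] [BorelSpace M] [SecondCountableTopology M]
  {ι : Type} [Fintype ι] {lam : Type} [Fintype lam]
  {T : Type} [NormedAddCommGroup T] [NormedSpace ℝ T]
  {𝔉 : Fam I M ι lam T} {o : Ref 𝔉} {k : ℕ}

section gm
variable (o) (h𝔉 : 𝔉.OK) (hk : 7 ≤ k) (r : ℕ)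

variable (T) in
/-- weight two on `z` -/
abbrev crZ : CR (Zr T r) := (CR.wt (EuclideanSpace ℂ (Fin r)) 2).prod (CR.triv T)

/-- the gauge algebra with the circle -/
abbrev gxM (h0 : o.Φ0 = 0) := (hy1 o h𝔉 hk).gx (cJ h𝔉 h0) (crZ T r)

/-- **The gauge group with the circle on a closed manifold.** -/
def gmC [o.B0] [CompactSpace M] (h0 : o.Φ0 = 0) : GrpM o r k fun _ _ => True where
  G := (gxM o h𝔉 hk r h0).Gx
  L := 𝔉.F0.H (k + 2) o.Pg × ℝ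
  H := 𝔉.F0.H k o.Pg × ℝ
  cG := GX.instIsTopologicalGroupGx _
  u a := uG (hy1 o h𝔉 hk) a.g
  ζ a := a.ζ
  c1 a := (c1_u _ a.g).contMDiffOn
  uu a x _ := uu _ h𝔉 a.g x
  cJ a x _ := (itx_eq (itx_u _ h𝔉 a.g x)).2.2.2.1
  cρ a x _ b := ((itx_eq (itx_u _ h𝔉 a.g x)).2.2.1 b).symm
  cj a x _ s := ((itx_eq (itx_u _ h𝔉 a.g x)).2.2.2.2 s).symm
  umul a b x _ := umul _ h𝔉 a.g b.g x
  ζmul _ _ := rfl
  al _ _ _ _ := trivial
  aα a v x _ b := by rw [o.A_eq]; exact aα _ h𝔉 a.g ((gxM o h𝔉 hk r h0).ρ a.ζ v) x b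
  aφ a v x := (aφ (hy1 o h𝔉 hk) h𝔉 a.g ((gxM o h𝔉 hk r h0).ρ a.ζ v) x).trans (by
    rw [QB.Hyp.spin_ρ]
    simp only [cs, map_add, map_smul, (itx_u _ h𝔉 a.g x).J, QB.spin])
  az a v := ((hy1 o h𝔉 hk).smul_z a.g _).trans (Prod.ext (CR.wt_apply 2 _ _) rfl)
  aff a := by
    obtain ⟨A, hA⟩ := (gaM o h𝔉 hk r).aff a.g.v
    refine ⟨A ∘L (gxM o h𝔉 hk r h0).ρ a.ζ, fun v => (hA _).trans ?_⟩
    rw [GX.smul_def, map_zero]; rfl
  ρD a := ((hypM o h𝔉 hk).crS (cJM h𝔉)).ρ a.ζ ∘L rD (hy1 o h𝔉 hk) a.g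
  ρC a := rC (hy1 o h𝔉 hk) a.g
  cD := (((hypM o h𝔉 hk).crS (cJM h𝔉)).cont.comp continuous_snd).clm_comp
    ((continuous_rD _).comp continuous_fst)
  cC := (continuous_rC _).comp continuous_fst
  cζ := continuous_snd
  cu x := (cu _ x).comp continuous_fst
  vD a h x := by
    rw [ContinuousLinearMap.comp_apply, (hypM o h𝔉 hk).val_crS, val_rD _ h𝔉 hk]
  vC a := val_rC _ h𝔉 hk a.g
  surj y y' w c _ _ he := by
    obtain ⟨ξ, hξ⟩ := dif_mem o h𝔉 he.m (k + 2) (by omega)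
    obtain ⟨g, hg⟩ := exists_g (Z := Zr T r) (hy1 o h𝔉 hk) h𝔉 he.m hξ
    exact ⟨GX.mk₂ g c, hg, rfl⟩
  dense y := ((hy1 o h𝔉 hk).dense_sm.preimage isOpenMap_fst).mono fun a ha => by
    have h1 := (nice_pt h𝔉 hk y).2
    have h2 : Nice 𝔉.F0.toPre (𝔉.F0.val _ _ ((gxM o h𝔉 hk r h0).ρ a.2 (y.pt k)).2.1) := by
      rw [QB.Hyp.ρ_2, funext ((hy1 o h𝔉 hk).val_crS _ _ _)]
      exact (h1.clm ((a.2 : ℂ).re • .id ℝ _)).add (h1.clm ((a.2 : ℂ).im • o.m.J))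
    exact exists_pnt h𝔉 hk ((hy1 o h𝔉 hk).nice_smul1 (.of_hcs ha.1 ha.2) (nice_pt h𝔉 hk y).1)
      ((hy1 o h𝔉 hk).nice_smul2 (.of_hcs ha.1 ha.2) h2)
      ((congrArg Prod.snd ((hy1 o h𝔉 hk).smul_z a.g _)).symm ▸ y.ht)
  proper y y' := (hy1 o h𝔉 hk).propAt_gx _ _ (Nk89.hdy_compact _) (nice_pt h𝔉 hk y).1.sm
    (nice_pt h𝔉 hk y').1.sm

end gm

end Crest.Agent.X212.Grp76
end
end

-- ▼ part X212/Grp76/Fre

/-! Free points: the infinitesimal action is injective; slice data. -/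

set_option autoImplicit false
set_option linter.unusedSectionVars false
noncomputable section
open scoped Manifold ContDiff Topology InnerProductSpace
open MeasureTheory Set Function Filter

namespace Crest.Agent.X212.Grp76
open An An.Pre Sob92 Wz78 Std94 Mod61 Slc61

variable {E : Type} [NormedAddCommGroup E] [NormedSpace ℝ E] [FiniteDimensional ℝ E]
  [MeasurableSpace E] [BorelSpace E]
  {HM : Type} [TopologicalSpace HM] {I : ModelWithCorners ℝ E HM} [I.Boundaryless]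
  {M : Type} [TopologicalSpace M] [ChartedSpace HM M] [IsManifold I ∞ M]
  [MeasurableSpace M] [T2Space M] [BorelSpace M] [SecondCountableTopology M]
  {ι : Type} [Fintype ι] {lam : Type} [Fintype lam]
  {T : Type} [NormedAddCommGroup T] [NormedSpace ℝ T]
  {𝔉 : Fam I M ι lam T} {o : Ref 𝔉} {k : ℕ}

/-- evaluation at a point is onto the fibre -/
theorem exists_ev {V : Type} [NormedAddCommGroup V] [InnerProductSpace ℝ V] [CompleteSpace V]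
    {F : Pre I M ι} {S : ℝ} (hS : Sup F S) (hk : 4 ≤ k) {p : M → V →L[ℝ] V} (hp : Sm I p)
    (hi : ∀ x v, p x (p x v) = p x v) {x : M} {v : V} (hv : p x v = v) :
    ∃ h : F.H k p, F.val k p h x = v := by
  obtain ⟨f⟩ : Nonempty (SmoothBumpFunction I x) := inferInstance
  refine ⟨F.toH k p ⟨fun y => f y • p y v, f.contMDiff.smul (hp.clm_apply contMDiff_const),
    f.hasCompactSupport.mono fun y hy h => hy (by simp [h]), fun y => by rw [map_smul, hi]⟩, ?_⟩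
  rw [val_toH hS hk]
  simp [hv]

section md
variable {B : Base M ι lam} {m : Md M ι lam} {x : M} (hB : B.OK I) (H : PMx B m x)
include hB H

/-- the centre of `g` is trivial -/
theorem g_cent {ξ : m.A} (hξ : ξ ∈ m.gS x) (h : ∀ η ∈ m.gS x, adc (opL η) ξ = 0) : ξ = 0 := by
  by_contra h0
  have h1 : m.gS x ≤ ℝ ∙ ξ := fun η hη => by
    have e := congrArg opL (h η hη)
    rw [opL_adc, map_zero, sub_eq_zero] at e
    have h2 : ‖ξ‖ ^ 2 ≠ 0 := by simpa using h0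
    exact Submodule.mem_span_singleton.2 ⟨(‖ξ‖ ^ 2)⁻¹ * ⟪ξ, η⟫_ℝ, by
      rw [mul_smul, ← g_comm hB H hξ hη e.symm, inv_smul_smul₀ h2]⟩
  have := Submodule.finrank_mono h1
  rw [finrank_g hB H, finrank_span_singleton h0] at this
  omega

theorem exists_pp : ∃ v, v ≠ 0 ∧ m.pp B x v = v := by
  obtain ⟨U, s, u, h⟩ := exists_fx hB H
  refine ⟨u (mk4 1 0 0 0), fun e => ?_, h.pp_u _⟩
  simpa using congrArg (· 0) (u.injective (e.trans (map_zero u).symm))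

end md

section eff
variable {Z : Type} [NormedAddCommGroup Z] [NormedSpace ℝ Z] (H : (qb o).Hyp 𝔉.F0 k) (h𝔉 : 𝔉.OK)
include h𝔉

/-- the infinitesimal action is effective -/
theorem eff {ξ : (qb o).L 𝔉.F0 k} (h : ∀ w, ((H.ga Z).d w ξ).1 = 0) : ξ = 0 := H.ext' fun x => by
  have h1 := (Pg_iff h𝔉 x _).1 (H.proj' ξ x)
  rw [val_zero]
  by_cases hx : x ∈ 𝔉.Om
  swap
  · exact h1.2 hx
  obtain ⟨a, ha⟩ : ∃ a, 𝔉.B.P a a x ≠ 0 := by
    by_contra! h2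
    simpa [h2] using h𝔉.B.rk x
  refine g_cent h𝔉.B (pmx o.ok x) h1.1 fun η hη => ?_
  obtain ⟨α, hα⟩ := exists_ev H.hS H.k4 (cb_sm H.cc) H.cc' (x := x)
    (v := WithLp.toLp 2 fun b => 𝔉.B.P b a x • η) ((H.c_iff x _).2 ⟨fun b => by
      rw [map_smul, (Pg_iff h𝔉 x η).2 ⟨hη, fun h => (h hx).elim⟩], fun b => by
      simp only [h𝔉.P0, smul_smul, ← Finset.sum_smul, (h𝔉.B.pr x).idem]⟩)
  have e1 := H.val_d1 (Z := Z) (α, 0) ξ x a
  have e2 := H.val_d1 (Z := Z) 0 ξ x a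
  rw [h, val_zero] at e1 e2
  rw [e1, neg_inj, nab, nab, add_right_inj] at e2
  simp only [QB.conn, hα, ← adcL_apply, map_add, map_smul, Prod.fst_zero, val_zero, Pi.zero_apply,
    PiLp.zero_apply, map_zero, add_zero, _root_.add_apply, _root_.smul_apply, add_eq_left,
    smul_eq_zero, ha, false_or] at e2
  exact e2

theorem d_inj {v : (qb o).C 𝔉.F0 k Z} (hs : ∀ g : (H.ga Z).Gr, g • v = v → ∀ w : (qb o).C 𝔉.F0 k Z,
    g • w = w) : Injective ((H.ga Z).d v) :=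
  (injective_iff_map_eq_zero _).2 fun _ h => eff H h𝔉 fun w => by
    rw [(H.ga Z).d_eq_zero hs h w]; rfl

omit h𝔉 in
theorem hasStrict_u (x : M) : HasStrictFDerivAt (fun ξ => uG H ((H.ga Z).e ξ) x)
    (opL ∘L 𝔉.F0.ev (k + 1) (Ph o) x ∘L (H.ga Z).j) 0 :=
  ((opL ∘L 𝔉.F0.ev (k + 1) (Ph o) x).hasStrictFDerivAt.comp 0 (H.ga Z).hasStrict_e).const_add _

end eff

section gm
variable (o) (h𝔉 : 𝔉.OK) (hk : 7 ≤ k) (r : ℕ)

/-- what `GrpM.Slc` asks of the group -/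
structure SlG {Al : (M → CL o.m.V o.m.V) → Circle → Prop} (Γ : GrpM o r k Al) {v : o.C r k}
    (D : SliceData Γ.G Γ.L Γ.H v) : Prop where
  γ : ∀ y, D.γ y = D.σ (y - v)
  sm : ContDiff ℝ ∞ D.γ
  nh : ∀ U ∈ 𝓝 (0 : Γ.L), D.e '' U ∈ 𝓝 (1 : Γ.G)
  du : ∀ x, ∃ s : Γ.L →L[ℝ] CL o.m.V o.m.V, HasStrictFDerivAt (fun ξ => Γ.u (D.e ξ) x) s 0
  dζ : ∃ s : Γ.L →L[ℝ] ℂ, HasStrictFDerivAt (fun ξ => (Γ.ζ (D.e ξ) : ℂ)) s 0

variable [o.B0]

section one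
variable (hy : Nk89.Hdy 𝔉.F0) (Al : (M → CL o.m.V o.m.V) → Circle → Prop)
    (h1 : ∀ w, dif o w ∈ Hs 𝔉.F0.toPre (Ph o) → Al w 1)
    (h2 : ∀ w c, Al w c → MEq I o.m o.m 𝔉.Om id (fun x b a => 𝔉.B.P b a x) 𝔉.B.l w →
      c = 1 ∧ dif o w ∈ Hs 𝔉.F0.toPre (Ph o)) {v : o.C r k}

theorem gm1_inj (hf : (gm1 o h𝔉 hk r hy Al h1 h2).Free v) : Injective ((gaM o h𝔉 hk r).d v) :=
  d_inj _ h𝔉 hf

/-- **Slice data without the circle** (`gmE`, `gmA` are `gm1 ..` by definition). -/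
theorem gm1_slice (hf : (gm1 o h𝔉 hk r hy Al h1 h2).Free v) (hp : PropAt (gaM o h𝔉 hk r).Gr v v)
    (σ : o.C r k →L[ℝ] 𝔉.F0.H k o.Pg) (hb : Bijective (σ ∘L (gaM o h𝔉 hk r).d v)) :
    ∃ D : SliceData (gm1 o h𝔉 hk r hy Al h1 h2).G (gm1 o h𝔉 hk r hy Al h1 h2).L
      (gm1 o h𝔉 hk r hy Al h1 h2).H v, SlG o r (gm1 o h𝔉 hk r hy Al h1 h2) D ∧ D.σ = σ ∧
      D.d = (gaM o h𝔉 hk r).d v ∧ D.e = (gaM o h𝔉 hk r).e :=
  ⟨(gaM o h𝔉 hk r).slice v σ hb hp hf, ⟨fun _ => rfl,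
    σ.contDiff.comp (contDiff_id.sub contDiff_const), fun _ => (gaM o h𝔉 hk r).image_e_mem,
    fun x => ⟨_, hasStrict_u (hy1 o h𝔉 hk) x⟩, _, hasStrictFDerivAt_const _ _⟩, rfl, rfl, rfl⟩

end one

variable [CompactSpace M] (h0 : o.Φ0 = 0) {v : o.C r k}

theorem gmC_inj (hf : (gmC o h𝔉 hk r h0).Free v) : Injective ((gaM o h𝔉 hk r).d v) :=
  (injective_iff_map_eq_zero _).2 fun ξ h => eff (Z := Zr T r) (hy1 o h𝔉 hk) h𝔉 fun w => by
    have := (gxM o h𝔉 hk r h0).d_eq_zero hf (q := (ξ, 0))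
      (by rw [GX.d_apply, zero_smul, add_zero, ← h]; rfl) w
    rw [GX.d_apply, zero_smul, add_zero] at this
    exact congrArg Prod.fst this

/-- at a free point the circle direction is not a gauge direction -/
theorem gmC_J (hne : 𝔉.Om'.Nonempty ∨ r ≠ 0) (hf : (gmC o h𝔉 hk r h0).Free v)
    (ξ : 𝔉.F0.H (k + 2) o.Pg) : (gaM o h𝔉 hk r).d v ξ ≠ (gxM o h𝔉 hk r h0).J v := fun h => by
  have H := hy1 o h𝔉 hk
  have h1 : ∀ w, (gaM o h𝔉 hk r).d w ξ = (gxM o h𝔉 hk r h0).J w := fun w => by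
    have := (gxM o h𝔉 hk r h0).d_eq_zero hf (q := (ξ, -1))
      (by rw [GX.d_apply, neg_one_smul, ← h]; exact add_neg_cancel _) w
    rwa [GX.d_apply, neg_one_smul, add_neg_eq_zero] at this
  obtain rfl : ξ = 0 := eff (Z := Zr T r) H h𝔉 fun w => congrArg Prod.fst (h1 w)
  simp only [map_zero] at h1
  rcases hne with ⟨x, hx⟩ | hr
  · obtain ⟨s, hs, e⟩ := exists_pp h𝔉.B (pmx o.ok x)
    obtain ⟨φ, rfl⟩ := exists_ev H.hS H.k4 (p := o.Pp) (sm_ind h𝔉.Om' fun y _ => sm_pp h𝔉.B o.ok y)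
      (fun y => ind_idem fun s => by rw [← mul_apply_eq_comp, pp_pp h𝔉.B (pmx o.ok y)]) (x := x)
      (v := s) (by rw [Ref.Pp, indicator_of_mem hx, e])
    have h2 := H.val_crS_J (cJ h𝔉 h0) φ x
    rw [show (H.crS (cJ h𝔉 h0)).J φ = 0 from (congrArg (·.2.1) (h1 (0, φ, 0))).symm, val_zero] at h2
    have h3 := congrArg o.m.J h2
    rw [← mul_apply_eq_comp, o.ok.Jsq] at h3
    exact hs (by simpa using h3)
  · have h2 : (0 : EuclideanSpace ℂ (Fin r)) = (CR.wt _ 2).J (EuclideanSpace.single ⟨0, by omega⟩ 1) :=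
      congrArg (·.2.2.1) (h1 (0, 0, EuclideanSpace.single ⟨0, by omega⟩ 1, 0))
    rw [CR.wt_J] at h2
    have h3 := congrArg norm h2
    simp [norm_smul] at h3

/-- **Slice data with the circle.** -/
theorem gmC_slice (hne : 𝔉.Om'.Nonempty ∨ r ≠ 0) (hf : (gmC o h𝔉 hk r h0).Free v)
    (hp : PropAt (gxM o h𝔉 hk r h0).Gx v v) (σ : o.C r k →L[ℝ] 𝔉.F0.H k o.Pg)
    (hb : Bijective (σ ∘L (gaM o h𝔉 hk r).d v)) :
    ∃ (ℓ : o.C r k →L[ℝ] ℝ) (D : SliceData (gmC o h𝔉 hk r h0).G (gmC o h𝔉 hk r h0).L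
      (gmC o h𝔉 hk r h0).H v), SlG o r (gmC o h𝔉 hk r h0) D ∧ D.σ = σ.prod ℓ ∧
      D.d = (gxM o h𝔉 hk r h0).d v ∧ D.e = (gxM o h𝔉 hk r h0).e ∧
      (∀ ξ, ℓ ((gaM o h𝔉 hk r).d v ξ) = 0) ∧ ℓ ((gxM o h𝔉 hk r h0).J v) = 1 := by
  obtain ⟨ℓ, e0, e1⟩ := GX.exists_row hb (gmC_J o h𝔉 hk r h0 hne hf)
  refine ⟨ℓ, (gxM o h𝔉 hk r h0).slice v (σ.prod ℓ) ((gxM o h𝔉 hk r h0).bij_row hb e0 e1) hp hf,
    ⟨fun _ => rfl, (σ.prod ℓ).contDiff.comp (contDiff_id.sub contDiff_const),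
      fun _ => (gxM o h𝔉 hk r h0).image_e_mem, fun x => ?_, ?_⟩, rfl, rfl, rfl, e0, e1⟩
  · have := HasStrictFDerivAt.comp (f := Prod.fst) (0 : 𝔉.F0.H (k + 2) o.Pg × ℝ)
      (hasStrict_u (Z := Zr T r) (hy1 o h𝔉 hk) x) hasStrictFDerivAt_fst
    exact ⟨_, this⟩
  have : ContDiff ℝ 1 fun q : 𝔉.F0.H (k + 2) o.Pg × ℝ => Complex.exp (q.2 * Complex.I) :=
    Complex.contDiff_exp.comp ((Complex.ofRealCLM.contDiff.comp contDiff_snd).mul contDiff_const)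
  exact ⟨_, this.contDiffAt.hasStrictFDerivAt one_ne_zero⟩

end gm

end Crest.Agent.X212.Grp76
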