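import Crest.Agent.X212.Grp76.Pt
import Crest.Agent.X212.Grp76.Ext

-- ▼ part X212/Grp76/Inst
section

/-! The Sobolev gauge group `1 + L²_{k+1}(h)` acting on `L²_k(c) × L²_k(s) × Z`. -/

set_option autoImplicit false
set_option linter.unusedSectionVars false
noncomputable section
open scoped Manifold ContDiff Topology InnerProductSpace
open MeasureTheory Set Function Filter

namespace Crest.Agent.X212.Grp76
open An An.Pre Sob92 Wz78

variable {E : Type} [NormedAddCommGroup E] [NormedSpace ℝ E] [FiniteDimensional ℝ E]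
  [MeasurableSpace E] [BorelSpace E]
  {HM : Type} [TopologicalSpace HM] {I : ModelWithCorners ℝ E HM} [I.Boundaryless]
  {M : Type} [TopologicalSpace M] [ChartedSpace HM M] [IsManifold I ∞ M]
  [MeasurableSpace M] [T2Space M] [BorelSpace M] [SecondCountableTopology M]
  {ι : Type} [Fintype ι] {κ : Type} [Fintype κ] [DecidableEq κ]

namespace QB
variable (Q : QB M ι κ) (F : Fr I M ι) (k : ℕ)
  (Z : Type) [NormedAddCommGroup Z] [NormedSpace ℝ Z]

/-- the algebra -/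
abbrev R : Type := F.H (k + 1) Q.h
/-- the Lie algebra -/
abbrev L : Type := F.H (k + 1) Q.g
/-- one-forms with values in `h` -/
abbrev Bf : Type := F.H k (Q.b F)
/-- spinors and parameters -/
abbrev S : Type := F.H k Q.s × Z
/-- configurations -/
abbrev C : Type := F.H k Q.c × F.H k Q.s × Z

/-- product -/
def mH : Q.R F k →L[ℝ] Q.R F k →L[ℝ] Q.R F k := F.bilH (k + 1) (k + 1) Q.h Q.h Q.h (k + 1) fun _ => mA
/-- transpose -/
def tH : Q.R F k →L[ℝ] Q.R F k := F.mulH (k + 1) Q.h Q.h fun _ => tA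
/-- products with forms -/
def lH (β : CL (HS κ) (CL (HS κ) (HS κ))) : Q.R F k →L[ℝ] Q.Bf F k →L[ℝ] Q.Bf F k :=
  F.bilH (k + 1) k Q.h (Q.b F) (Q.b F) k fun _ => onF ι β
/-- transpose of forms -/
def sbH : Q.Bf F k →L[ℝ] Q.Bf F k := F.mulH k (Q.b F) (Q.b F) fun _ => tF ι
/-- covariant derivative -/
def delH : Q.R F k →L[ℝ] Q.Bf F k := F.opH k Q.h (Q.b F) (Q.σ F) (Q.B0 F)
/-- action on spinors -/
def aH : Q.R F k →L[ℝ] F.H k Q.s →L[ℝ] F.H k Q.s := F.bilH (k + 1) k Q.h Q.s Q.s k fun _ => opL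
/-- action on the base spinor -/
def dsH : Q.R F k →L[ℝ] F.H k Q.s :=
  (F.mulH k Q.h Q.s fun x => evA (Q.Φ x)) ∘L F.incl (k + 1) k Q.h
/-- forms with values in `g` as forms with values in `h` -/
def paH : F.H k Q.c →L[ℝ] Q.Bf F k := F.mulH k Q.c (Q.b F) (triv M _)
/-- the projection back -/
def cH : Q.Bf F k →L[ℝ] F.H k Q.c := F.mulH k (Q.b F) Q.c Q.c
/-- the inclusion of the Lie algebra -/
def jH : Q.L F k →L[ℝ] Q.R F k := F.mulH (k + 1) Q.g Q.h (triv M _)
/-- the projection to the Lie algebra -/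
def qH : Q.R F k →L[ℝ] Q.L F k := F.mulH (k + 1) Q.h Q.g Q.g

/-- the action on `S` -/
def aS : Q.R F k →L[ℝ] Q.S F k Z →L[ℝ] Q.S F k Z :=
  ((ContinuousLinearMap.compL ℝ (Q.S F k Z) (F.H k Q.s) (Q.S F k Z)
    (ContinuousLinearMap.inl ℝ _ _)).comp
    ((ContinuousLinearMap.compL ℝ (Q.S F k Z) (F.H k Q.s) (F.H k Q.s)).flip
      (ContinuousLinearMap.fst ℝ _ _))).comp (Q.aH F k)

theorem aS_apply (u : Q.R F k) (y : Q.S F k Z) : Q.aS F k Z u y = (Q.aH F k u y.1, 0) := rfl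

/-- all the hypotheses -/
structure Hyp : Prop extends Q.OK F where
  sup : ∃ S, Sup F.toPre S
  hk : 7 ≤ k

variable {Q F k Z}

namespace Hyp
variable (H : Q.Hyp F k)
include H

theorem hS : Sup F.toPre H.sup.choose := H.sup.choose_spec
theorem k4 : 4 ≤ k := by have := H.hk; omega
theorem k5 : 4 ≤ k + 1 := by have := H.hk; omega
theorem lev : Lev (k + 1) k k := Lev.left (by have := H.hk; omega) k.le_succ

section
variable {V : Type} [NormedAddCommGroup V] [InnerProductSpace ℝ V] [CompleteSpace V]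
  {p : M → V →L[ℝ] V}

theorem ext {u v : F.H k p} (h : ∀ x, F.val k p u x = F.val k p v x) : u = v :=
  val_injective H.hS H.k4 (funext h)

theorem ext' {u v : F.H (k + 1) p} (h : ∀ x, F.val (k + 1) p u x = F.val (k + 1) p v x) : u = v :=
  val_injective H.hS H.k5 (funext h)

theorem md (u : F.H (k + 1) p) : MDifferentiable I 𝓘(ℝ, V) (F.val (k + 1) p u) :=
  (val_DH H.hS H.k4 u).1

theorem proj (u : F.H k p) (x : M) : p x (F.val k p u x) = F.val k p u x := val_proj H.hS H.k4 u x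

theorem proj' (u : F.H (k + 1) p) (x : M) : p x (F.val (k + 1) p u x) = F.val (k + 1) p u x :=
  val_proj H.hS H.k5 u x

end

theorem val_m (u v : Q.R F k) (x : M) :
    F.val _ _ (Q.mH F k u v) x = mA (F.val _ _ u x) (F.val _ _ v x) :=
  val_bilH H.hS (Lev.self (by have := H.hk; omega)) H.k5 (Cb_const _) H.m_mA u v x

theorem val_t (u : Q.R F k) (x : M) : F.val _ _ (Q.tH F k u) x = tA (F.val _ _ u x) :=
  val_mulH H.hS H.k5 (Cb_const _) H.m_tA u x

theorem val_l (u : Q.R F k) (b : Q.Bf F k) (x : M) (a : ι) :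
    F.val _ _ (Q.lH F k mA u b) x a = mA (F.val _ _ u x) (F.val _ _ b x a) := by
  rw [lH, val_bilH H.hS H.lev H.k4 (Cb_const _) H.m_l, onF_apply]

theorem val_r (u : Q.R F k) (b : Q.Bf F k) (x : M) (a : ι) :
    F.val _ _ (Q.lH F k mO u b) x a = mA (F.val _ _ b x a) (F.val _ _ u x) := by
  rw [lH, val_bilH H.hS H.lev H.k4 (Cb_const _) H.m_r, onF_apply, mO_apply]

theorem val_sb (b : Q.Bf F k) (x : M) (a : ι) :
    F.val _ _ (Q.sbH F k b) x a = tA (F.val _ _ b x a) := by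
  rw [sbH, val_mulH H.hS H.k4 (Cb_const _) H.m_tF, tF_apply]

theorem val_del (u : Q.R F k) (x : M) (a : ι) :
    F.val _ _ (Q.delH F k u) x a = nab I F.e Q.ad a (F.val _ _ u) x := by
  rw [delH, val_opH H.hS H.k4 H.cσ H.cB0 (fun a x v => H.bb x _) (Maps.of_left fun x v => H.bb x _),
    H.op_del (H.md u) (H.proj' u)]

theorem val_a (u : Q.R F k) (φ : F.H k Q.s) (x : M) :
    F.val _ _ (Q.aH F k u φ) x = opL (F.val _ _ u x) (F.val _ _ φ x) :=
  val_bilH H.hS H.lev H.k4 (Cb_const _) H.m_a u φ x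

theorem val_ds (u : Q.R F k) (x : M) :
    F.val _ _ (Q.dsH F k u) x = opL (F.val _ _ u x) (Q.Φ x) := by
  rw [dsH, ContinuousLinearMap.comp_apply, val_mulH H.hS H.k4 H.cev H.m_ds,
    val_incl H.hS H.k4 k.le_succ, evA_apply]

theorem val_pa (α : F.H k Q.c) (x : M) : F.val _ _ (Q.paH F k α) x = F.val _ _ α x :=
  val_mulH H.hS H.k4 (Cb_const _) H.m_pa α x

theorem val_c (b : Q.Bf F k) (x : M) : F.val _ _ (Q.cH F k b) x = Q.c x (F.val _ _ b x) :=
  val_mulH H.hS H.k4 H.cc H.m_c b x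

theorem val_j (ξ : Q.L F k) (x : M) : F.val _ _ (Q.jH F k ξ) x = F.val _ _ ξ x :=
  val_mulH H.hS H.k5 (Cb_const _) H.m_j ξ x

theorem val_j' (ξ : Q.L F k) : F.val _ _ (Q.jH F k ξ) = F.val _ _ ξ := funext (H.val_j ξ)

theorem val_q (u : Q.R F k) (x : M) : F.val _ _ (Q.qH F k u) x = Q.g x (F.val _ _ u x) :=
  val_mulH H.hS H.k5 H.cg H.m_q u x

theorem nab_m {u v : M → HS κ} {x : M} (hu : MDifferentiableAt I 𝓘(ℝ, HS κ) u x)
    (hv : MDifferentiableAt I 𝓘(ℝ, HS κ) v x) (a : ι) :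
    nab I F.e Q.ad a (fun y => mA (u y) (v y)) x =
      mA (nab I F.e Q.ad a u x) (v x) + mA (u x) (nab I F.e Q.ad a v x) := by
  simp only [nab, dv_bil mA hu hv, QB.ad, adc_mA, map_add, _root_.add_apply]
  abel

theorem nab_t {u : M → HS κ} {x : M} (hu : MDifferentiableAt I 𝓘(ℝ, HS κ) u x) (a : ι) :
    nab I F.e Q.ad a (fun y => tA (u y)) x = tA (nab I F.e Q.ad a u x) := by
  simp only [nab, dv_clm tA hu, QB.ad, map_add, tA_adc (H.sk a x)]

variable (Z) in
/-- **The gauge algebra.** -/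
def ga : GA (Q.R F k) (Q.Bf F k) (Q.S F k Z) (Q.C F k Z) (Q.L F k) where
  m := Q.mH F k
  st := Q.tH F k
  l := Q.lH F k mA
  r := Q.lH F k mO
  sb := Q.sbH F k
  del := Q.delH F k
  a := Q.aS F k Z
  ds := ContinuousLinearMap.inl ℝ _ _ ∘L Q.dsH F k
  pa := Q.paH F k ∘L ContinuousLinearMap.fst ℝ _ _
  ps := ContinuousLinearMap.snd ℝ _ _
  mk' := (Q.cH F k).prodMap (ContinuousLinearMap.id ℝ _)
  j := Q.jH F k
  q := Q.qH F k
  m_assoc u v w := H.ext' fun x => by simp only [H.val_m, mA_assoc]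
  st_st u := H.ext' fun x => by simp only [H.val_t, tA_tA]
  st_m u v := H.ext' fun x => by simp only [H.val_t, H.val_m, tA_mA]
  normal u := H.ext' fun x => by simp only [H.val_t, H.val_m, H.nrm x _ (H.proj' u x)]
  l_m u v b := H.ext fun x => PiLp.ext fun a => by simp only [H.val_l, H.val_m, mA_assoc]
  r_m u v b := H.ext fun x => PiLp.ext fun a => by simp only [H.val_r, H.val_m, mA_assoc]
  l_r u v b := H.ext fun x => PiLp.ext fun a => by simp only [H.val_l, H.val_r, mA_assoc]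
  del_m u v := H.ext fun x => PiLp.ext fun a => by
    rw [val_add, Pi.add_apply, PiLp.add_apply, H.val_l, H.val_r, H.val_del, H.val_del, H.val_del,
      funext (H.val_m u v), H.nab_m (H.md u x) (H.md v x)]
  sb_l u b := H.ext fun x => PiLp.ext fun a => by
    simp only [H.val_l, H.val_r, H.val_sb, H.val_t, tA_mA]
  sb_r u b := H.ext fun x => PiLp.ext fun a => by
    simp only [H.val_l, H.val_r, H.val_sb, H.val_t, tA_mA]
  sb_del u := H.ext fun x => PiLp.ext fun a => by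
    rw [H.val_sb, H.val_del, H.val_del, funext (H.val_t u), H.nab_t (H.md u x)]
  a_m u v s := Prod.ext (H.ext fun x => by
    simp only [aS_apply, H.val_a, H.val_m, opL_mA, mul_apply_eq_comp]) rfl
  ds_m u v := Prod.ext (H.ext fun x => by
    show F.val _ _ (Q.dsH F k _) x = F.val _ _ (Q.aH F k u (Q.dsH F k v)) x
    simp only [H.val_a, H.val_ds, H.val_m, opL_mA, mul_apply_eq_comp]) rfl
  sb_pa y := H.ext fun x => PiLp.ext fun a => by
    show _ = F.val _ _ (-Q.paH F k y.1) x a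
    rw [val_neg, Pi.neg_apply, PiLp.neg_apply, H.val_sb]
    show tA (F.val _ _ (Q.paH F k y.1) x a) = _
    rw [H.val_pa]
    exact ((H.g_iff x _).1 (((H.c_iff x _).1 (H.proj y.1 x)).1 a)).2
  mk_p y := Prod.ext (H.ext fun x => by
    show F.val _ _ (Q.cH F k (Q.paH F k y.1)) x = _
    rw [H.val_c, H.val_pa, H.proj]) rfl
  pa_mk b s hb := H.ext fun x => by
    show F.val _ _ (Q.paH F k (Q.cH F k b)) x = _
    have h1 := (H.b_iff x _).1 (H.proj b x)
    rw [H.val_pa, H.val_c, H.c_iff]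
    refine ⟨fun a => (H.g_iff x _).2 ⟨h1.1 a, ?_⟩, h1.2⟩
    rw [← H.val_sb, hb, val_neg]; rfl
  ps_mk _ _ := rfl
  st_j ξ := H.ext' fun x => by
    rw [H.val_t, val_neg, Pi.neg_apply, H.val_j]
    exact ((H.g_iff x _).1 (H.proj' ξ x)).2
  q_j ξ := H.ext' fun x => by rw [H.val_q, H.val_j, H.proj']
  j_q u hu := H.ext' fun x => by
    rw [H.val_j, H.val_q, H.g_iff]
    exact ⟨H.proj' u x, by rw [← H.val_t, hu, val_neg]; rfl⟩

end Hyp
end QB

end Crest.Agent.X212.Grp76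
end
end

-- ▼ part X212/Grp76/Act

/-! Circle representations, the extended group, pointwise formulas for the action. -/

set_option autoImplicit false
set_option linter.unusedSectionVars false
noncomputable section
open scoped Manifold ContDiff Topology InnerProductSpace
open MeasureTheory Set Function Filter

namespace Crest.Agent.X212.Grp76
open An An.Pre Sob92 Wz78

/-- smooth circle representations -/
structure CR (Z : Type) [NormedAddCommGroup Z] [NormedSpace ℝ Z] where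
  ρ : Circle →* (Z →L[ℝ] Z)
  J : Z →L[ℝ] Z
  cont : Continuous ρ
  der : HasStrictDerivAt (fun t : ℝ => ρ (Circle.exp t)) J 0

namespace CR
variable {Y Z : Type} [NormedAddCommGroup Y] [NormedSpace ℝ Y] [NormedAddCommGroup Z]
  [NormedSpace ℝ Z]

variable (Z) in
/-- the trivial representation -/
def triv : CR Z := ⟨1, 0, continuous_const, hasStrictDerivAt_const _ _⟩

/-- weight `n` for a complex structure -/
def ofJ (J : Z →L[ℝ] Z) (hJ : J * J = -1) (n : ℕ) : CR Z where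
  ρ :=
    { toFun := fun ζ => ((ζ : ℂ) ^ n).re • 1 + ((ζ : ℂ) ^ n).im • J
      map_one' := by simp
      map_mul' := fun ζ ξ => by
        simp only [Circle.coe_mul, mul_pow, Complex.mul_re, Complex.mul_im, mul_add, add_mul,
          smul_mul_assoc, mul_smul_comm, hJ, one_mul, mul_one]
        module }
  J := (n : ℝ) • J
  cont := by
    show Continuous fun ζ : Circle => ((ζ : ℂ) ^ n).re • (1 : Z →L[ℝ] Z) + ((ζ : ℂ) ^ n).im • J
    fun_prop
  der := by
    have e : ∀ t : ℝ, ((Circle.exp t : ℂ)) ^ n = Complex.exp ((n * t : ℝ) * Complex.I) := fun t => by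
      rw [Circle.coe_exp, ← Complex.exp_nat_mul]; push_cast; ring_nf
    show HasStrictDerivAt (fun t : ℝ => ((Circle.exp t : ℂ) ^ n).re • (1 : Z →L[ℝ] Z) +
      ((Circle.exp t : ℂ) ^ n).im • J) _ 0
    simp only [e, Complex.exp_ofReal_mul_I_re, Complex.exp_ofReal_mul_I_im]
    have h : HasStrictDerivAt (fun t : ℝ => (n : ℝ) * t) n 0 := by
      simpa using (hasStrictDerivAt_id (0 : ℝ)).const_mul (n : ℝ)
    have h2 := (h.cos.smul_const (1 : Z →L[ℝ] Z)).add (h.sin.smul_const J)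
    simp only [mul_zero, Real.sin_zero, Real.cos_zero, neg_zero, zero_mul, zero_smul, zero_add,
      one_mul] at h2
    exact h2

theorem ofJ_apply (J : Z →L[ℝ] Z) (hJ : J * J = -1) (n : ℕ) (ζ : Circle) (z : Z) :
    (ofJ J hJ n).ρ ζ z = ((ζ : ℂ) ^ n).re • z + ((ζ : ℂ) ^ n).im • J z := rfl

/-- product -/
def prod (r : CR Y) (s : CR Z) : CR (Y × Z) where
  ρ :=
    { toFun := fun ζ => (r.ρ ζ).prodMap (s.ρ ζ)
      map_one' := by rw [map_one, map_one]; rfl
      map_mul' := fun ζ ξ => by rw [map_mul, map_mul]; rfl }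
  J := r.J.prodMap s.J
  cont := (ContinuousLinearMap.prodMapL ℝ Y Y Z Z).continuous.comp (r.cont.prodMk s.cont)
  der := (ContinuousLinearMap.prodMapL ℝ Y Y Z Z).hasStrictFDerivAt.comp_hasStrictDerivAt 0
    (r.der.prodMk s.der)

theorem prod_apply (r : CR Y) (s : CR Z) (ζ : Circle) (z : Y × Z) :
    (r.prod s).ρ ζ z = (r.ρ ζ z.1, s.ρ ζ z.2) := rfl

/-- weight `n` on a complex space -/
def wt (Z : Type) [NormedAddCommGroup Z] [NormedSpace ℂ Z] (n : ℕ) : CR Z :=
  ofJ ((Complex.I • ContinuousLinearMap.id ℂ Z).restrictScalars ℝ)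
    (by ext z; simp [smul_smul]) n

theorem wt_apply {Z : Type} [NormedAddCommGroup Z] [NormedSpace ℂ Z] (n : ℕ) (ζ : Circle) (z : Z) :
    (wt Z n).ρ ζ z = ((ζ : ℂ) ^ n) • z := by
  conv_rhs => rw [← Complex.re_add_im ((ζ : ℂ) ^ n), add_smul, mul_smul]
  rfl

theorem wt_J {Z : Type} [NormedAddCommGroup Z] [NormedSpace ℂ Z] (n : ℕ) (z : Z) :
    (wt Z n).J z = (n : ℝ) • Complex.I • z := rfl

end CR

theorem GA.aff {R B S C L : Type*} [NormedAddCommGroup R] [NormedSpace ℝ R]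
    [NormedAddCommGroup B] [NormedSpace ℝ B] [NormedAddCommGroup S] [NormedSpace ℝ S]
    [NormedAddCommGroup C] [NormedSpace ℝ C] [NormedAddCommGroup L] [NormedSpace ℝ L]
    (D : GA R B S C L) (u : R) : ∃ A : C →L[ℝ] C, ∀ x, D.act u x = A x + D.act u 0 := by
  refine ⟨D.mk' ∘L ((((1 + D.r (D.st u)) ∘L (1 + D.l u)) ∘L D.pa).prod ((1 + D.a u) ∘L D.ps)),
    fun x => ?_⟩
  rw [GA.act, GA.act, ContinuousLinearMap.comp_apply, ← map_add]
  congr 1
  simp only [GA.cn, GA.ao, GA.ro, GA.lo, ContinuousLinearMap.prod_apply, Prod.mk_add_mk,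
    ContinuousLinearMap.comp_apply, _root_.add_apply, ContinuousLinearMap.one_apply, map_zero,
    map_sub, map_add]
  refine Prod.ext ?_ ?_ <;> simp only <;> abel

variable {E : Type} [NormedAddCommGroup E] [NormedSpace ℝ E] [FiniteDimensional ℝ E]
  [MeasurableSpace E] [BorelSpace E]
  {HM : Type} [TopologicalSpace HM] {I : ModelWithCorners ℝ E HM} [I.Boundaryless]
  {M : Type} [TopologicalSpace M] [ChartedSpace HM M] [IsManifold I ∞ M]
  [MeasurableSpace M] [T2Space M] [BorelSpace M] [SecondCountableTopology M]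
  {ι : Type} [Fintype ι] {κ : Type} [Fintype κ] [DecidableEq κ]

/-- the pointwise action on connection forms -/
def cnP (ξ α n : HS κ) : HS κ := (α + mA ξ α - n) + mA (α + mA ξ α - n) (tA ξ)

namespace QB
variable (Q : QB M ι κ) (F : Fr I M ι) (k : ℕ)
  {Z : Type} [NormedAddCommGroup Z] [NormedSpace ℝ Z]

/-- the connection of a point -/
def conn (v : Q.C F k Z) : ι → M → En κ := fun a x => Q.W a x + opL (F.val k Q.c v.1 x a)

/-- the spinor of a point -/
def spin (v : Q.C F k Z) : M → Eu κ := fun x => Q.Φ x + F.val k Q.s v.2.1 x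

variable {Q F k}

namespace Hyp
variable (H : Q.Hyp F k)
include H

theorem g_val (v : Q.C F k Z) (x : M) (a : ι) :
    Q.g x (F.val k Q.c v.1 x a) = F.val k Q.c v.1 x a :=
  ((H.c_iff x _).1 (H.proj v.1 x)).1 a

theorem conn_skw (v : Q.C F k Z) (a : ι) (x : M) : Skw (Q.conn F k v a x) := fun y z => by
  have h := (skw_iff _).2 ((H.g_iff x _).1 (H.g_val v x a)).2 y z
  simp only [conn, _root_.add_apply, inner_add_left, inner_add_right, H.sk a x y z, h]
  ring

theorem s_spin (v : Q.C F k Z) (x : M) : Q.s x (Q.spin F k v x) = Q.spin F k v x := by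
  rw [spin, map_add, H.sΦ, H.proj]

theorem val_T1 (v w : Q.C F k Z) (u : Q.R F k) (x : M) (a : ι) :
    F.val _ _ ((H.ga Z).T v w u).1 x a = nab I F.e Q.ad a (F.val _ _ u) x
      - mA (F.val _ _ u x) (F.val _ _ v.1 x a) + mA (F.val _ _ w.1 x a) (F.val _ _ u x) := by
  show F.val _ _ (Q.delH F k u - Q.lH F k mA u (Q.paH F k v.1) + Q.lH F k mO u (Q.paH F k w.1)) x a
    = _
  rw [val_add, val_sub, Pi.add_apply, Pi.sub_apply, PiLp.add_apply, PiLp.sub_apply, H.val_del,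
    H.val_l, H.val_r, H.val_pa, H.val_pa]

theorem D_opL (u : Q.R F k) (a : ι) (x : M) :
    F.D a (fun y => opL (F.val _ _ u y)) x = opL (F.D a (F.val _ _ u) x) := dv_clm opL (H.md u x)

theorem opL_T1 (v w : Q.C F k Z) (u : Q.R F k) (x : M) (a : ι) :
    opL (F.val _ _ ((H.ga Z).T v w u).1 x a) = opL (F.D a (F.val _ _ u) x)
      + Q.conn F k w a x * opL (F.val _ _ u x) - opL (F.val _ _ u x) * Q.conn F k v a x := by
  simp only [H.val_T1, nab, map_add, map_sub, opL_mA, QB.ad, opL_adc, conn, D_def]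
  noncomm_ring

theorem val_T2 (v w : Q.C F k Z) (u : Q.R F k) (x : M) :
    F.val _ _ ((H.ga Z).T v w u).2.1 x = opL (F.val _ _ u x) (Q.spin F k v x) := by
  show F.val _ _ (Q.aH F k u v.2.1 + Q.dsH F k u) x = _
  rw [val_add, Pi.add_apply, H.val_a, H.val_ds, spin, map_add, add_comm]

theorem T_z (v w : Q.C F k Z) (u : Q.R F k) : ((H.ga Z).T v w u).2.2 = 0 := add_zero (0 : Z)

theorem val_nn (u : Q.R F k) (x : M) : F.val _ _ ((H.ga Z).nn u) x =
    F.val _ _ u x + tA (F.val _ _ u x) + mA (tA (F.val _ _ u x)) (F.val _ _ u x) := by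
  show F.val _ _ (u + Q.tH F k u + Q.mH F k (Q.tH F k u) u) x = _
  rw [val_add, val_add, Pi.add_apply, Pi.add_apply, H.val_m, H.val_t]

theorem val_o (u w : Q.R F k) (x : M) : F.val _ _ ((H.ga Z).o u w) x =
    F.val _ _ u x + F.val _ _ w x + mA (F.val _ _ u x) (F.val _ _ w x) := by
  show F.val _ _ (u + w + Q.mH F k u w) x = _
  rw [val_add, val_add, Pi.add_apply, Pi.add_apply, H.val_m]

/-- the value `ξ` of the gauge transformation `1 + ξ` -/
def gv (g : (H.ga Z).Gr) : M → HS κ := F.val (k + 1) Q.h g.v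

theorem h_gv (g : (H.ga Z).Gr) (x : M) : Q.h x (H.gv g x) = H.gv g x := H.proj' _ x

theorem md_gv (g : (H.ga Z).Gr) : MDifferentiable I 𝓘(ℝ, HS κ) (H.gv g) := H.md _

theorem c1_gv (g : (H.ga Z).Gr) : ContMDiff I 𝓘(ℝ, HS κ) 1 (H.gv g) :=
  contMDiff_val (n := 1) H.hS (by have := H.hk; omega) _

theorem continuous_gv (x : M) : Continuous fun g : (H.ga Z).Gr => H.gv g x :=
  (continuous_val_apply x).comp GA.continuous_v

theorem nn_gv (g : (H.ga Z).Gr) (x : M) :
    H.gv g x + tA (H.gv g x) + mA (tA (H.gv g x)) (H.gv g x) = 0 := by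
  rw [gv, ← H.val_nn (Z := Z), g.nn_v, val_zero]; rfl

theorem nn_gv' (g : (H.ga Z).Gr) (x : M) :
    H.gv g x + tA (H.gv g x) + mA (H.gv g x) (tA (H.gv g x)) = 0 := by
  rw [H.nrm x _ (H.h_gv g x), H.nn_gv]

theorem gv_mul (g g' : (H.ga Z).Gr) (x : M) :
    H.gv (g * g') x = H.gv g x + H.gv g' x + mA (H.gv g x) (H.gv g' x) := H.val_o _ _ x

theorem gv_inv (g : (H.ga Z).Gr) (x : M) : H.gv g⁻¹ x = tA (H.gv g x) := H.val_t _ x

theorem gv_inj {g g' : (H.ga Z).Gr} (h : ∀ x, H.gv g x = H.gv g' x) : g = g' :=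
  GA.Gr.ext (H.ext' h)

/-- the gauge transformation with a given unitary value -/
def mkG (u : Q.R F k) (hu : ∀ x, F.val _ _ u x + tA (F.val _ _ u x) +
    mA (tA (F.val _ _ u x)) (F.val _ _ u x) = 0) : (H.ga Z).Gr :=
  ⟨u, H.ext' fun x => by rw [H.val_nn, hu, val_zero]; rfl⟩

theorem gv_mkG (u : Q.R F k) (hu : ∀ x, F.val _ _ u x + tA (F.val _ _ u x) +
    mA (tA (F.val _ _ u x)) (F.val _ _ u x) = 0) : H.gv (H.mkG (Z := Z) u hu) = F.val _ _ u := rfl

theorem unit (g : (H.ga Z).Gr) (x : M) : trn (1 + opL (H.gv g x)) * (1 + opL (H.gv g x)) = 1 := by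
  have h := congrArg opL (H.nn_gv g x)
  simp only [map_add, opL_mA, opL_tA, map_zero] at h
  have e : trn (1 + opL (H.gv g x)) = 1 + trn (opL (H.gv g x)) :=
    (map_add ContinuousLinearMap.adjoint _ _).trans
      (congrArg (· + _) ContinuousLinearMap.adjoint_id)
  rw [e]
  linear_combination (norm := noncomm_ring) h

theorem norm_gv (g : (H.ga Z).Gr) (x : M) : ‖H.gv g x‖ ≤ ‖(hsL : CL (En κ) (HS κ))‖ * 2 := by
  have h1 : ∀ v, ‖(1 + opL (H.gv g x)) v‖ = ‖v‖ := fun v => by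
    rw [← sq_eq_sq₀ (norm_nonneg _) (norm_nonneg _), ← real_inner_self_eq_norm_sq,
      ← ContinuousLinearMap.adjoint_inner_right, ← mul_apply_eq_comp, H.unit,
      ContinuousLinearMap.one_apply, real_inner_self_eq_norm_sq]
  have h2 : ‖opL (H.gv g x)‖ ≤ 2 := ContinuousLinearMap.opNorm_le_bound _ (by norm_num) fun v => by
    have := norm_sub_le ((1 + opL (H.gv g x)) v) v
    rw [h1] at this
    simpa [two_mul] using this
  conv_lhs => rw [← hsL_opL (H.gv g x)]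
  exact (hsL : CL (En κ) (HS κ)).le_opNorm_of_le h2

theorem val_smul1 (g : (H.ga Z).Gr) (v : Q.C F k Z) (x : M) (a : ι) :
    F.val _ _ (g • v).1 x a =
      cnP (H.gv g x) (F.val _ _ v.1 x a) (nab I F.e Q.ad a (H.gv g) x) := by
  have h : Q.paH F k (g • v).1 = _ := GA.pa_smul g v
  rw [← H.val_pa, h]
  show F.val _ _ ((Q.paH F k v.1 + Q.lH F k mA g.v (Q.paH F k v.1) - Q.delH F k g.v) +
    Q.lH F k mO (Q.tH F k g.v) (Q.paH F k v.1 + Q.lH F k mA g.v (Q.paH F k v.1) - Q.delH F k g.v))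
      x a = _
  simp only [val_add, val_sub, Pi.add_apply, Pi.sub_apply, PiLp.add_apply, PiLp.sub_apply,
    H.val_del, H.val_l, H.val_r, H.val_pa, H.val_t, cnP, gv]

theorem val_smul2 (g : (H.ga Z).Gr) (v : Q.C F k Z) (x : M) :
    F.val _ _ (g • v).2.1 x = F.val _ _ v.2.1 x + opL (H.gv g x) (Q.spin F k v x) := by
  show F.val _ _ (v.2.1 + (Q.aH F k g.v v.2.1 + Q.dsH F k g.v)) x = _
  simp only [val_add, Pi.add_apply, H.val_a, H.val_ds, spin, map_add, gv]
  abel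

theorem spin_smul (g : (H.ga Z).Gr) (v : Q.C F k Z) (x : M) :
    Q.spin F k (g • v) x = Q.spin F k v x + opL (H.gv g x) (Q.spin F k v x) := by
  rw [spin, H.val_smul2, ← add_assoc]; rfl

theorem smul_z (g : (H.ga Z).Gr) (v : Q.C F k Z) : (g • v).2.2 = v.2.2 := by
  show v.2.2 + ((0 : Z) + 0) = _
  simp

/-- the gauge transformation is parallel -/
theorem par_smul (g : (H.ga Z).Gr) (v : Q.C F k Z) (x : M) (a : ι) :
    opL (F.D a (H.gv g) x) + Q.conn F k (g • v) a x * (1 + opL (H.gv g x))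
      - (1 + opL (H.gv g x)) * Q.conn F k v a x = 0 := by
  have h := congrArg (fun t : Q.Bf F k × Q.S F k Z => opL (F.val _ _ t.1 x a))
    ((GA.smul_eq_iff g v _).1 rfl)
  simp only [H.opL_T1] at h
  change _ = opL (F.val _ _ (Q.paH F k v.1 - Q.paH F k (g • v).1) x a) at h
  rw [val_sub, Pi.sub_apply, PiLp.sub_apply, H.val_pa, H.val_pa, map_sub] at h
  have e : Q.conn F k (g • v) a x - Q.conn F k v a x =
    opL (F.val _ _ (g • v).1 x a) - opL (F.val _ _ v.1 x a) := by simp only [conn]; abel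
  rw [gv]
  linear_combination (norm := noncomm_ring) h + e

theorem val_d1 (v : Q.C F k Z) (ξ : Q.L F k) (x : M) (a : ι) :
    F.val _ _ ((H.ga Z).d v ξ).1 x a =
      -nab I F.e (fun a x => adc (Q.conn F k v a x)) a (F.val _ _ ξ) x := by
  have h : Q.paH F k ((H.ga Z).d v ξ).1 = -((H.ga Z).T v v (Q.jH F k ξ)).1 :=
    (H.ga Z).pa_d v ξ
  rw [← H.val_pa, h, val_neg, Pi.neg_apply, PiLp.neg_apply, H.val_T1, H.val_j']
  simp only [nab, conn, QB.ad, ← adcL_apply, map_add, _root_.add_apply]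
  simp only [adcL_apply, adc_opL]
  abel

theorem val_d2 (v : Q.C F k Z) (ξ : Q.L F k) (x : M) :
    F.val _ _ ((H.ga Z).d v ξ).2.1 x = opL (F.val _ _ ξ x) (Q.spin F k v x) := by
  rw [← H.val_j, ← H.val_T2 v v]; rfl

theorem d_z (v : Q.C F k Z) (ξ : Q.L F k) : ((H.ga Z).d v ξ).2.2 = 0 := add_zero (0 : Z)

end Hyp

/-- a complex structure commuting with the gauge group -/
structure CJ (Q : QB M ι κ) (J : En κ) : Prop where
  sq : J * J = -1
  s : Maps Q.s Q.s fun _ => J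
  h : ∀ x ξ, Q.h x ξ = ξ → J * opL ξ = opL ξ * J
  Φ : Q.Φ = 0

namespace Hyp
variable (H : Q.Hyp F k) {J : En κ} (hJ : Q.CJ J) (r : CR Z)
include H hJ

theorem val_J (φ : F.H k Q.s) (x : M) :
    F.val _ _ (F.mulH k Q.s Q.s (fun _ => J) φ) x = J (F.val _ _ φ x) :=
  val_mulH H.hS H.k4 (Cb_const _) hJ.s φ x

/-- the circle on spinors -/
def crS : CR (F.H k Q.s) := CR.ofJ (F.mulH k Q.s Q.s fun _ => J)
  (ContinuousLinearMap.ext fun φ => H.ext fun x => by
    show _ = F.val _ _ (-φ) x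
    rw [mul_apply_eq_comp, H.val_J hJ, H.val_J hJ, ← mul_apply_eq_comp, hJ.sq, val_neg]; rfl) 1

theorem val_crS (ζ : Circle) (φ : F.H k Q.s) (x : M) :
    F.val _ _ ((H.crS hJ).ρ ζ φ) x = cs J ζ (F.val _ _ φ x) := by
  rw [crS, CR.ofJ_apply, val_add, val_smul, val_smul, pow_one, Pi.add_apply, Pi.smul_apply,
    Pi.smul_apply, H.val_J hJ, cs]

theorem val_crS_J (φ : F.H k Q.s) (x : M) :
    F.val _ _ ((H.crS hJ).J φ) x = J (F.val _ _ φ x) := by
  show F.val _ _ (((1 : ℕ) : ℝ) • F.mulH k Q.s Q.s (fun _ => J) φ) x = _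
  rw [Nat.cast_one, one_smul, H.val_J hJ]

omit H in
theorem opL_cs {x : M} {ξ : HS κ} (h : Q.h x ξ = ξ) (c : ℂ) (v : Eu κ) :
    opL ξ (cs J c v) = cs J c (opL ξ v) := by
  simp only [cs, map_add, map_smul, ← mul_apply_eq_comp, hJ.h x ξ h]

/-- the circle on configurations -/
def crC : CR (Q.C F k Z) := (CR.triv _).prod ((H.crS hJ).prod r)

/-- **The gauge algebra with the circle.** -/
def gx : GX (Q.R F k) (Q.Bf F k) (Q.S F k Z) (Q.C F k Z) (Q.L F k) where
  toGA := H.ga Z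
  ρ := (H.crC hJ r).ρ
  J := (H.crC hJ r).J
  cont := (H.crC hJ r).cont
  der := (H.crC hJ r).der.hasStrictFDerivAt
  comm u ζ v hu := by
    let g : (H.ga Z).Gr := ⟨u, hu⟩
    show g • (H.crC hJ r).ρ ζ v = (H.crC hJ r).ρ ζ (g • v)
    refine Prod.ext rfl (Prod.ext (H.ext fun x => ?_) ?_)
    · show _ = F.val _ _ ((H.crS hJ).ρ ζ (g • v).2.1) x
      rw [H.val_crS, H.val_smul2, H.val_smul2, spin, spin, hJ.Φ, Pi.zero_apply, zero_add, zero_add]
      show F.val _ _ ((H.crS hJ).ρ ζ v.2.1) x + opL _ (F.val _ _ ((H.crS hJ).ρ ζ v.2.1) x) = _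
      rw [H.val_crS, opL_cs hJ (H.h_gv g x)]
      simp only [cs, map_add, smul_add]; abel
    · show _ = r.ρ ζ (g • v).2.2
      rw [H.smul_z, H.smul_z]; rfl

theorem ρ_1 (ζ : Circle) (v : Q.C F k Z) : ((H.gx hJ r).ρ ζ v).1 = v.1 := rfl
theorem ρ_2 (ζ : Circle) (v : Q.C F k Z) : ((H.gx hJ r).ρ ζ v).2.1 = (H.crS hJ).ρ ζ v.2.1 := rfl
theorem ρ_z (ζ : Circle) (v : Q.C F k Z) : ((H.gx hJ r).ρ ζ v).2.2 = r.ρ ζ v.2.2 := rfl
theorem J_1 (v : Q.C F k Z) : ((H.gx hJ r).J v).1 = 0 := rfl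
theorem J_2 (v : Q.C F k Z) : ((H.gx hJ r).J v).2.1 = (H.crS hJ).J v.2.1 := rfl
theorem J_z (v : Q.C F k Z) : ((H.gx hJ r).J v).2.2 = r.J v.2.2 := rfl

theorem conn_ρ (ζ : Circle) (v : Q.C F k Z) : Q.conn F k ((H.gx hJ r).ρ ζ v) = Q.conn F k v := rfl

theorem spin_ρ (ζ : Circle) (v : Q.C F k Z) (x : M) :
    Q.spin F k ((H.gx hJ r).ρ ζ v) x = cs J ζ (Q.spin F k v x) := by
  rw [spin, spin, hJ.Φ, Pi.zero_apply, zero_add, zero_add, ρ_2, H.val_crS]

end Hyp
end QB

end Crest.Agent.X212.Grp76
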